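import Vale.Agent.Lib.P012.LL.Defs

/-! # T2: every short interval contains a modulus all of whose divisors are good -/

namespace Vale.Agent.Lib.P012.LL
open Finset

/-- number of `v` in a window of length `L` with `e ∣ 1 + Q v`. -/
private theorem card_window_le (Q a L e : ℕ) (he : 0 < e) :
    (((Ioc a (a + L)).filter (fun v => e ∣ 1 + Q * v)).card : ℚ) ≤ (L : ℚ) / e + 1 := by
  classical
  have heq : (0 : ℚ) < e := by exact_mod_cast he
  by_cases hne : ((Ioc a (a + L)).filter (fun v => e ∣ 1 + Q * v)).Nonempty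
  · obtain ⟨v0, hv0⟩ := hne
    rw [mem_filter] at hv0
    have hcop : Nat.Coprime e Q := by
      have h1 : Nat.gcd e Q ∣ 1 + Q * v0 := (Nat.gcd_dvd_left e Q).trans hv0.2
      have h2 : Nat.gcd e Q ∣ Q * v0 := (Nat.gcd_dvd_right e Q).mul_right v0
      have h3 : Nat.gcd e Q ∣ 1 := (Nat.dvd_add_left h2).mp h1
      exact Nat.dvd_one.mp h3
    have hsub : (Ioc a (a + L)).filter (fun v => e ∣ 1 + Q * v) ⊆
        (Ioc a (a + L)).filter (fun v => v ≡ v0 [MOD e]) := by
      intro v hv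
      rw [mem_filter] at hv ⊢
      refine ⟨hv.1, ?_⟩
      have h1 : 1 + Q * v ≡ 1 + Q * v0 [MOD e] :=
        ((Nat.modEq_zero_iff_dvd).mpr hv.2).trans ((Nat.modEq_zero_iff_dvd).mpr hv0.2).symm
      have h2 : Q * v ≡ Q * v0 [MOD e] := Nat.ModEq.add_left_cancel' 1 h1
      exact Nat.ModEq.cancel_left_of_coprime hcop h2
    have hcard := Nat.Ioc_filter_modEq_card a (a + L) he v0
    have hle : (((Ioc a (a + L)).filter (fun v => e ∣ 1 + Q * v)).card : ℚ) ≤
        (((Ioc a (a + L)).filter (fun v => v ≡ v0 [MOD e])).card : ℚ) := by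
      exact_mod_cast card_le_card hsub
    refine hle.trans ?_
    have hc2 : ((((Ioc a (a + L)).filter (fun v => v ≡ v0 [MOD e])).card : ℤ) : ℚ) =
        ((max (⌊(((a + L : ℕ) : ℚ) - v0) / (e : ℚ)⌋ - ⌊((a : ℚ) - v0) / (e : ℚ)⌋) 0 : ℤ) : ℚ) := by
      rw [hcard]
    have hc3 : (((Ioc a (a + L)).filter (fun v => v ≡ v0 [MOD e])).card : ℚ) =
        ((max (⌊(((a + L : ℕ) : ℚ) - v0) / (e : ℚ)⌋ - ⌊((a : ℚ) - v0) / (e : ℚ)⌋) 0 : ℤ) : ℚ) := by
      rw [← hc2]; simp
    rw [hc3, Int.cast_max]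
    apply max_le
    · have f1 := Int.floor_le ((((a + L : ℕ) : ℚ) - v0) / (e : ℚ))
      have f2 := Int.lt_floor_add_one (((a : ℚ) - v0) / (e : ℚ))
      have f3 : (((a + L : ℕ) : ℚ) - v0) / (e : ℚ) = ((a : ℚ) - v0) / (e : ℚ) + (L : ℚ) / e := by
        push_cast; ring
      rw [Int.cast_sub]
      linarith
    · have : (0 : ℚ) ≤ (L : ℚ) / e := by positivity
      rw [Int.cast_zero]
      linarith
  · rw [not_nonempty_iff_eq_empty] at hne
    rw [hne]
    have : (0 : ℚ) ≤ (L : ℚ) / e := by positivity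
    simp
    linarith

theorem gap (A pool Exc : Finset ℕ) (R ν : ℕ)
    (hpoolprime : ∀ p ∈ pool, p.Prime)
    (hpool : ∑ p ∈ pool, (1 : ℚ) / p ≤ 1 / 64)
    (hExc : ∑ e ∈ Exc, (1 : ℚ) / 1024 ^ (lev e) ≤ 1 / 64)
    (hExcpos : ∀ e ∈ Exc, 0 < e)
    (hgood : ∀ e, R < e → e < 2 ^ (ν + 1) → (∀ p ∈ pool, ¬ p ∣ e) → e ∉ Exc → GoodMod A e)
    (m : ℕ) (hm : m < 2 ^ (ν + 1))
    (hmlo : primorial R * (2 * pool.card + 1024 ^ (lev m) + 2) < m) :
    ∃ w, 1 < w ∧ w ≤ m ∧ m < w + primorial R * (2 * pool.card + 1024 ^ (lev m) + 1) ∧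
      ∀ e, e ∣ w → 1 < e → GoodMod A e := by
  classical
  set Q := primorial R with hQ
  set T := 1024 ^ (lev m) with hT
  set L := 2 * pool.card + T + 1 with hL
  have hQpos : 0 < Q := primorial_pos R
  set v1 := (m - 1) / Q with hv1
  have hmpos : 0 < m := lt_of_le_of_lt (Nat.zero_le _) hmlo
  -- `v1 ≥ L + 1`
  have hv1lo : L + 1 ≤ v1 := by
    rw [hv1, Nat.le_div_iff_mul_le hQpos]
    have : Q * (L + 1) < m := by
      have : L + 1 = 2 * pool.card + T + 2 := by omega
      rw [this]; exact hmlo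
    rw [mul_comm]; omega
  have hv1up : Q * v1 ≤ m - 1 := Nat.mul_div_le (m - 1) Q
  have hv1up2 : m - 1 < Q * (v1 + 1) := by
    have := Nat.lt_mul_div_succ (m - 1) hQpos
    simpa [hv1] using this
  set a := v1 - L with ha
  have haL : a + L = v1 := by omega
  set W := Ioc a (a + L) with hW
  have hWcard : W.card = L := by simp [hW]
  set S : ℕ → Finset ℕ := fun e => W.filter (fun v => e ∣ 1 + Q * v) with hS
  set Exc' := Exc.filter (fun e => e ≤ m) with hExc'
  set B := (pool.biUnion S) ∪ (Exc'.biUnion S) with hB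
  -- bound for the bad set
  have hB1 : ((pool.biUnion S).card : ℚ) ≤ (L : ℚ) / 64 + pool.card := by
    have h1 : ((pool.biUnion S).card : ℚ) ≤ ∑ p ∈ pool, ((S p).card : ℚ) := by
      exact_mod_cast card_biUnion_le
    have h2 : ∑ p ∈ pool, ((S p).card : ℚ) ≤ ∑ p ∈ pool, ((L : ℚ) * (1 / p) + 1) := by
      apply sum_le_sum
      intro p hp
      have := card_window_le Q a L p (hpoolprime p hp).pos
      calc ((S p).card : ℚ) ≤ (L : ℚ) / p + 1 := this
        _ = (L : ℚ) * (1 / p) + 1 := by ring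
    have h3 : ∑ p ∈ pool, ((L : ℚ) * (1 / p) + 1) = (L : ℚ) * (∑ p ∈ pool, (1 : ℚ) / p) + pool.card := by
      rw [sum_add_distrib, ← mul_sum]; simp
    have h4 : (L : ℚ) * (∑ p ∈ pool, (1 : ℚ) / p) ≤ (L : ℚ) * (1 / 64) :=
      mul_le_mul_of_nonneg_left hpool (by positivity)
    linarith
  have hsub' : ∑ e ∈ Exc', (1 : ℚ) / 1024 ^ (lev e) ≤ 1 / 64 := by
    refine le_trans ?_ hExc
    apply sum_le_sum_of_subset_of_nonneg (filter_subset _ _)
    intro i _ _; positivity
  have hB2 : ((Exc'.biUnion S).card : ℚ) ≤ (L : ℚ) / 64 + (T : ℚ) / 64 := by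
    have h1 : ((Exc'.biUnion S).card : ℚ) ≤ ∑ e ∈ Exc', ((S e).card : ℚ) := by
      exact_mod_cast card_biUnion_le
    have h2 : ∑ e ∈ Exc', ((S e).card : ℚ) ≤
        ∑ e ∈ Exc', ((L : ℚ) * (1 / 1024 ^ (lev e)) + (T : ℚ) * (1 / 1024 ^ (lev e))) := by
      apply sum_le_sum
      intro e he
      rw [hExc', mem_filter] at he
      have hepos : 0 < e := hExcpos e he.1
      have := card_window_le Q a L e hepos
      have hle1 : (1024 : ℚ) ^ (lev e) ≤ e := by
        have h4096 : 4096 ^ (lev e) ≤ e := Nat.pow_log_le_self 4096 hepos.ne'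
        have h1024 : 1024 ^ (lev e) ≤ 4096 ^ (lev e) := Nat.pow_le_pow_left (by norm_num) _
        exact_mod_cast h1024.trans h4096
      have hpow : (0 : ℚ) < 1024 ^ (lev e) := by positivity
      have hd1 : (L : ℚ) / e ≤ (L : ℚ) * (1 / 1024 ^ (lev e)) := by
        rw [mul_one_div]
        exact div_le_div_of_nonneg_left (by positivity) hpow hle1
      have hlev : lev e ≤ lev m := Nat.log_mono_right he.2
      have hd2 : (1 : ℚ) ≤ (T : ℚ) * (1 / 1024 ^ (lev e)) := by
        rw [mul_one_div, le_div_iff₀ hpow, one_mul, hT]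
        push_cast
        exact pow_le_pow_right₀ (by norm_num) hlev
      calc ((S e).card : ℚ) ≤ (L : ℚ) / e + 1 := this
        _ ≤ _ := by linarith
    have h3 : ∑ e ∈ Exc', ((L : ℚ) * (1 / 1024 ^ (lev e)) + (T : ℚ) * (1 / 1024 ^ (lev e))) =
        ((L : ℚ) + T) * ∑ e ∈ Exc', (1 : ℚ) / 1024 ^ (lev e) := by
      rw [mul_sum]; apply sum_congr rfl; intro e _; ring
    have h4 : ((L : ℚ) + T) * ∑ e ∈ Exc', (1 : ℚ) / 1024 ^ (lev e) ≤ ((L : ℚ) + T) * (1 / 64) :=
      mul_le_mul_of_nonneg_left hsub' (by positivity)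
    linarith
  have hBcard : B.card < W.card := by
    have h1 : (B.card : ℚ) ≤ ((pool.biUnion S).card : ℚ) + ((Exc'.biUnion S).card : ℚ) := by
      exact_mod_cast card_union_le _ _
    have hLq : (L : ℚ) = 2 * pool.card + T + 1 := by rw [hL]; push_cast; ring
    have hTq : (0 : ℚ) ≤ T := by positivity
    have hpq : (0 : ℚ) ≤ pool.card := by positivity
    have : (B.card : ℚ) < (L : ℚ) := by
      have : (B.card : ℚ) ≤ (L : ℚ) / 64 + pool.card + ((L : ℚ) / 64 + (T : ℚ) / 64) := by linarith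
      rw [hLq] at this ⊢
      linarith
    rw [hWcard]
    exact_mod_cast this
  obtain ⟨v, hvW, hvB⟩ : ∃ v ∈ W, v ∉ B := by
    by_contra hcon
    have hcon' : ∀ v ∈ W, v ∈ B := fun v hv => by
      by_contra h
      exact hcon ⟨v, hv, h⟩
    exact absurd (card_le_card (fun v hv => hcon' v hv)) (not_le.mpr hBcard)
  rw [hW, mem_Ioc] at hvW
  have hw_le : 1 + Q * v ≤ m := by
    have : Q * v ≤ Q * v1 := Nat.mul_le_mul_left Q (by omega)
    omega
  refine ⟨1 + Q * v, ?_, hw_le, ?_, ?_⟩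
  · have hvpos : 0 < v := by omega
    have : 0 < Q * v := Nat.mul_pos hQpos hvpos
    omega
  · have h1 : Q * (v1 + 1) ≤ Q * (v + L) := Nat.mul_le_mul_left Q (by omega)
    have h2 : Q * (v + L) = Q * v + Q * L := by ring
    omega
  · intro e he1 he2
    have hele : e ≤ 1 + Q * v := Nat.le_of_dvd (by omega) he1
    have hvWmem : v ∈ W := by rw [hW, mem_Ioc]; exact hvW
    apply hgood e
    · -- `R < e`
      have hp : (Nat.minFac e).Prime := Nat.minFac_prime (by omega)
      have hpe : Nat.minFac e ∣ e := Nat.minFac_dvd e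
      have hple : Nat.minFac e ≤ e := Nat.minFac_le (by omega)
      by_contra hcon0
      have hcon : e ≤ R := not_lt.mp hcon0
      have hpR : Nat.minFac e ≤ R := hple.trans hcon
      have hpQ : Nat.minFac e ∣ Q := (hp.dvd_primorial_iff).mpr hpR
      have h1 : Nat.minFac e ∣ 1 + Q * v := hpe.trans he1
      have h2 : Nat.minFac e ∣ Q * v := hpQ.mul_right v
      have h3 : Nat.minFac e ∣ 1 := (Nat.dvd_add_left h2).mp h1
      exact hp.one_lt.ne' (Nat.dvd_one.mp h3)
    · omega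
    · intro p hp hpe
      apply hvB
      rw [hB, mem_union]
      left
      rw [mem_biUnion]
      exact ⟨p, hp, by rw [hS]; exact mem_filter.mpr ⟨hvWmem, hpe.trans he1⟩⟩
    · intro heE
      apply hvB
      rw [hB, mem_union]
      right
      rw [mem_biUnion]
      refine ⟨e, ?_, by rw [hS]; exact mem_filter.mpr ⟨hvWmem, he1⟩⟩
      rw [hExc', mem_filter]
      exact ⟨heE, hele.trans hw_le⟩

end Vale.Agent.Lib.P012.LL
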