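import Vale.Agent.Lib.P012.LL.Defs

/-! # T1: Fourier hitting lemma for a general modulus -/

namespace Vale.Agent.Lib.P012.LL
open Finset

private lemma addChar_sum {G R ι : Type*} [AddCommMonoid G] [CommMonoid R] (ψ : AddChar G R)
    (s : Finset ι) (f : ι → G) : ψ (∑ i ∈ s, f i) = ∏ i ∈ s, ψ (f i) := by
  classical
  induction s using Finset.induction_on with
  | empty => simp
  | insert a s ha ih => rw [Finset.sum_insert ha, Finset.prod_insert ha, AddChar.map_add_eq_mul, ih]

/-- `∑_{d=2}^{n} 1/d^2 ≤ 1 - 1/n`. -/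
private lemma sum_inv_sq (n : ℕ) (hn : 1 ≤ n) :
    ∑ d ∈ Finset.Icc 2 n, (1 / (d : ℝ) ^ 2) ≤ 1 - 1 / (n : ℝ) := by
  induction n, hn using Nat.le_induction with
  | base => simp
  | succ n hn ih =>
    rw [Finset.sum_Icc_succ_top (by omega)]
    have hn0 : (0 : ℝ) < n := by exact_mod_cast hn
    have h1 : 1 / (((n + 1 : ℕ) : ℝ)) ^ 2 ≤ 1 / (n : ℝ) - 1 / ((n + 1 : ℕ) : ℝ) := by
      push_cast
      rw [div_sub_div _ _ hn0.ne' (by positivity), div_le_div_iff₀ (by positivity) (by positivity)]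
      nlinarith
    linarith

section
variable {w : ℕ} [NeZero w]

/-- the reduced modulus attached to a frequency -/
private def red (t : ZMod w) : ℕ := w / Nat.gcd t.val w

private lemma gcd_pos' (t : ZMod w) : 0 < Nat.gcd t.val w :=
  Nat.gcd_pos_of_pos_right _ (Nat.pos_of_ne_zero (NeZero.ne w))

omit [NeZero w] in
private lemma gcd_mul_red (t : ZMod w) : Nat.gcd t.val w * red t = w :=
  Nat.mul_div_cancel' (Nat.gcd_dvd_right _ _)

omit [NeZero w] in
private lemma red_dvd (t : ZMod w) : red t ∣ w := ⟨_, by rw [mul_comm, gcd_mul_red]⟩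

private lemma red_pos (t : ZMod w) : 0 < red t := by
  rcases Nat.eq_zero_or_pos (red t) with h | h
  · have := gcd_mul_red t
    rw [h, mul_zero] at this
    exact absurd this.symm (NeZero.ne w)
  · exact h

private lemma one_lt_red (t : ZMod w) (ht : t ≠ 0) : 1 < red t := by
  have hv : 0 < t.val := by
    rw [Nat.pos_iff_ne_zero, Ne, ZMod.val_eq_zero]
    exact ht
  have h1 : Nat.gcd t.val w ≤ t.val := Nat.gcd_le_left _ hv
  have h2 : t.val < w := ZMod.val_lt t
  have h3 := gcd_mul_red t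
  by_contra h
  have h4 : red t = 1 := by
    have := red_pos t
    omega
  rw [h4, mul_one] at h3
  omega

private lemma mul_sub_eq_zero_iff (t : ZMod w) (a a' : ℕ) :
    t * ((a : ZMod w) - (a' : ZMod w)) = 0 ↔ a ≡ a' [MOD red t] := by
  have hg := gcd_pos' t
  set g := Nat.gcd t.val w with hgdef
  obtain ⟨t', ht'⟩ : g ∣ t.val := Nat.gcd_dvd_left _ _
  have hw : g * red t = w := gcd_mul_red t
  have hcop : Nat.Coprime (red t) t' := by
    have h := Nat.coprime_div_gcd_div_gcd (m := t.val) (n := w) hg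
    have e1 : t.val / g = t' := by
      rw [ht']
      exact Nat.mul_div_cancel_left _ hg
    rw [← hgdef, e1] at h
    exact h.symm
  have e2 : t * ((a : ZMod w) - (a' : ZMod w)) = (((t.val : ℤ) * ((a : ℤ) - (a' : ℤ)) : ℤ) : ZMod w) := by
    push_cast
    rw [ZMod.natCast_zmod_val]
  rw [e2, ZMod.intCast_zmod_eq_zero_iff_dvd, Nat.modEq_iff_dvd]
  have e3 : ((w : ℕ) : ℤ) = (g : ℤ) * (red t : ℤ) := by exact_mod_cast hw.symm
  have e4 : ((t.val : ℕ) : ℤ) = (g : ℤ) * (t' : ℤ) := by exact_mod_cast ht'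
  rw [e3, e4, mul_assoc]
  have hg' : (g : ℤ) ≠ 0 := by exact_mod_cast hg.ne'
  rw [mul_dvd_mul_iff_left hg']
  have hcop' : IsCoprime (red t : ℤ) (t' : ℤ) := Nat.isCoprime_iff_coprime.mpr hcop
  constructor
  · intro h
    have := hcop'.dvd_of_dvd_mul_left h
    rw [← neg_sub]
    exact (dvd_neg).mpr this
  · intro h
    apply Dvd.dvd.mul_left
    rw [← neg_sub]
    exact (dvd_neg).mpr h

private lemma EZ_eq (A : Finset ℕ) (t : ZMod w) : EZ A t = EE A (red t) := by
  unfold EZ EE
  congr 1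
  apply Finset.filter_congr
  intro q _
  exact mul_sub_eq_zero_iff t q.1 q.2

private lemma le_annCard (t : ZMod w) : Nat.gcd t.val w ≤ annCard t := by
  unfold annCard
  have hw := gcd_mul_red t
  have hr := red_pos t
  calc Nat.gcd t.val w = (Finset.range (Nat.gcd t.val w)).card := (Finset.card_range _).symm
    _ ≤ _ := by
      apply Finset.card_le_card_of_injOn (fun j => ((red t * j : ℕ) : ZMod w))
      · intro j _
        simp only [Finset.coe_filter, Finset.mem_univ, true_and, Set.mem_ofPred_eq]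
        have := (mul_sub_eq_zero_iff t (red t * j) 0).mpr (by
          rw [Nat.modEq_zero_iff_dvd]
          exact Dvd.intro _ rfl)
        simpa using this
      · intro j hj j' hj' h
        simp only [Finset.coe_range, Set.mem_Iio] at hj hj'
        have l0 : ∀ i, i < Nat.gcd t.val w → red t * i < w := by
          intro i hi
          calc red t * i < red t * Nat.gcd t.val w := (Nat.mul_lt_mul_left hr).mpr hi
            _ = w := by rw [mul_comm]; exact hw
        have l1 := l0 j hj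
        have l2 := l0 j' hj'
        have := congrArg ZMod.val h
        simp only at this
        rw [ZMod.val_natCast_of_lt l1, ZMod.val_natCast_of_lt l2] at this
        exact Nat.eq_of_mul_eq_mul_left hr this

/-- the bilinear sum attached to a frequency -/
private noncomputable def FF (A : Finset ℕ) (t : ZMod w) : ℂ :=
  ∑ a ∈ A, ∑ b ∈ A, (ZMod.stdAddChar (t * (a : ZMod w) * (b : ZMod w)) : ℂ)

private lemma FF_sq_le (A : Finset ℕ) (t : ZMod w) :
    ‖FF A t‖ ^ 2 ≤ (red t : ℝ) * (EE A (red t) : ℝ) ^ 2 := by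
  have h1 := bilinear_bound A A t
  rw [EZ_eq] at h1
  have h2 := le_annCard t
  have hg : (0 : ℝ) < (Nat.gcd t.val w : ℝ) := by exact_mod_cast gcd_pos' t
  have hw : ((Nat.gcd t.val w : ℕ) : ℝ) * (red t : ℝ) = (w : ℝ) := by exact_mod_cast gcd_mul_red t
  have h3 : ((Nat.gcd t.val w : ℕ) : ℝ) * ‖FF A t‖ ^ 2
      ≤ ((Nat.gcd t.val w : ℕ) : ℝ) * ((red t : ℝ) * (EE A (red t) : ℝ) ^ 2) := by
    calc ((Nat.gcd t.val w : ℕ) : ℝ) * ‖FF A t‖ ^ 2 ≤ (annCard t : ℝ) * ‖FF A t‖ ^ 2 := by
          apply mul_le_mul_of_nonneg_right _ (by positivity)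
          exact_mod_cast h2
      _ ≤ (w : ℝ) * EE A (red t) * EE A (red t) := h1
      _ = _ := by rw [← hw]; ring
  exact le_of_mul_le_mul_left h3 hg

private lemma FF_pow_le (A : Finset ℕ) (t : ZMod w) (hgood : GoodMod A (red t)) :
    ‖FF A t‖ ^ 18 * (red t : ℝ) ^ 3 ≤ (A.card : ℝ) ^ 36 := by
  have h1 := FF_sq_le A t
  set r := red t with hr
  set E := EE A r with hE
  have h2 : r ^ 2 * E ^ 3 ≤ A.card ^ 6 := by
    have h3 : r < 4096 ^ (lev r + 1) := Nat.lt_pow_succ_log_self (by norm_num) r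
    have h4 : E * 256 ^ (lev r + 1) ≤ A.card ^ 2 := hgood
    have h5 : ((4096 : ℕ) ^ (lev r + 1)) ^ 2 = (256 ^ (lev r + 1)) ^ 3 := by
      rw [← pow_mul, ← pow_mul, mul_comm, pow_mul, mul_comm (lev r + 1) 3, pow_mul]
      norm_num
    calc r ^ 2 * E ^ 3 ≤ (4096 ^ (lev r + 1)) ^ 2 * E ^ 3 := by
          apply Nat.mul_le_mul_right
          exact Nat.pow_le_pow_left h3.le 2
      _ = (E * 256 ^ (lev r + 1)) ^ 3 := by rw [h5]; ring
      _ ≤ (A.card ^ 2) ^ 3 := Nat.pow_le_pow_left h4 3
      _ = A.card ^ 6 := by ring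
  have h2' : (r : ℝ) ^ 2 * (E : ℝ) ^ 3 ≤ (A.card : ℝ) ^ 6 := by exact_mod_cast h2
  have hx0 : 0 ≤ ‖FF A t‖ ^ 2 := by positivity
  calc ‖FF A t‖ ^ 18 * (r : ℝ) ^ 3 = (‖FF A t‖ ^ 2) ^ 9 * (r : ℝ) ^ 3 := by ring
    _ ≤ ((r : ℝ) * (E : ℝ) ^ 2) ^ 9 * (r : ℝ) ^ 3 := by
        apply mul_le_mul_of_nonneg_right _ (by positivity)
        exact pow_le_pow_left₀ hx0 h1 9
    _ = ((r : ℝ) ^ 2 * (E : ℝ) ^ 3) ^ 6 := by ring
    _ ≤ ((A.card : ℝ) ^ 6) ^ 6 := pow_le_pow_left₀ (by positivity) h2' 6
    _ = (A.card : ℝ) ^ 36 := by ring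

private lemma card_fiber_le (d : ℕ) :
    (((univ : Finset (ZMod w)).erase 0).filter (fun t => red t = d)).card ≤ d := by
  calc _ ≤ (Finset.range d).card := by
        apply Finset.card_le_card_of_injOn (fun t => t.val / (w / d))
        · intro t ht
          simp only [Finset.coe_filter, Set.mem_ofPred_eq] at ht
          have hd : red t = d := ht.2
          have hdpos : 0 < d := hd ▸ red_pos t
          have hw := gcd_mul_red t
          rw [hd] at hw
          have hg : w / d = Nat.gcd t.val w := Nat.div_eq_of_eq_mul_left hdpos hw.symm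
          simp only [Finset.coe_range, Set.mem_Iio]
          apply Nat.div_lt_of_lt_mul
          rw [hg, hw]
          exact ZMod.val_lt t
        · intro t ht t' ht' h
          simp only [Finset.coe_filter, Set.mem_ofPred_eq] at ht ht'
          have key : ∀ s : ZMod w, red s = d → (w / d) * (s.val / (w / d)) = s.val := by
            intro s hd
            have hdpos : 0 < d := hd ▸ red_pos s
            have hw := gcd_mul_red s
            rw [hd] at hw
            have hg : w / d = Nat.gcd s.val w := Nat.div_eq_of_eq_mul_left hdpos hw.symm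
            rw [hg]
            exact Nat.mul_div_cancel' (Nat.gcd_dvd_left _ _)
          apply ZMod.val_injective w
          rw [← key t ht.2, ← key t' ht'.2]
          simp only at h
          rw [h]
    _ = d := Finset.card_range d

private lemma sum_red_lt (hw : 1 < w) :
    ∑ t ∈ (univ : Finset (ZMod w)).erase 0, (1 / (red t : ℝ) ^ 3) < 1 := by
  have hmaps : ∀ t ∈ (univ : Finset (ZMod w)).erase 0, red t ∈ Finset.Icc 2 w := by
    intro t ht
    rw [Finset.mem_Icc]
    exact ⟨one_lt_red t (Finset.ne_of_mem_erase ht),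
      Nat.le_of_dvd (Nat.pos_of_ne_zero (NeZero.ne w)) (red_dvd t)⟩
  rw [← Finset.sum_fiberwise_of_maps_to hmaps]
  have hw0 : (0 : ℝ) < w := by exact_mod_cast Nat.pos_of_ne_zero (NeZero.ne w)
  calc ∑ d ∈ Finset.Icc 2 w, ∑ t ∈ (univ : Finset (ZMod w)).erase 0 with red t = d,
        (1 / (red t : ℝ) ^ 3)
      ≤ ∑ d ∈ Finset.Icc 2 w, (1 / (d : ℝ) ^ 2) := by
        apply Finset.sum_le_sum
        intro d hd
        have hd2 : 2 ≤ d := (Finset.mem_Icc.mp hd).1
        have hd0 : (0 : ℝ) < d := by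
          have : 0 < d := by omega
          exact_mod_cast this
        have e1 : ∑ t ∈ (univ : Finset (ZMod w)).erase 0 with red t = d, (1 / (red t : ℝ) ^ 3)
            = (((univ : Finset (ZMod w)).erase 0).filter (fun t => red t = d)).card
              * (1 / (d : ℝ) ^ 3) := by
          rw [← nsmul_eq_mul, ← Finset.sum_const]
          apply Finset.sum_congr rfl
          intro t ht
          rw [(Finset.mem_filter.mp ht).2]
        rw [e1]
        calc ((((univ : Finset (ZMod w)).erase 0).filter (fun t => red t = d)).card : ℝ)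
              * (1 / (d : ℝ) ^ 3) ≤ (d : ℝ) * (1 / (d : ℝ) ^ 3) := by
              apply mul_le_mul_of_nonneg_right _ (by positivity)
              exact_mod_cast card_fiber_le d
          _ = 1 / (d : ℝ) ^ 2 := by
              field_simp
    _ ≤ 1 - 1 / (w : ℝ) := sum_inv_sq w hw.le
    _ < 1 := by
        have : 0 < 1 / (w : ℝ) := by positivity
        linarith

end

/-- If `A` has few collisions modulo every divisor `e > 1` of `w`, then `w` divides a sum of
18 products `a * a'` with `a, a' ∈ A`. -/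
theorem hit (A : Finset ℕ) (w : ℕ) (hw : 1 < w) (hA : A.Nonempty)
    (hgood : ∀ e, e ∣ w → 1 < e → GoodMod A e) :
    ∃ g : Fin 18 → ℕ × ℕ, (∀ i, (g i).1 ∈ A ∧ (g i).2 ∈ A) ∧ w ∣ ∑ i, (g i).1 * (g i).2 := by
  have : NeZero w := ⟨by omega⟩
  set s : Finset (Fin 18 → ℕ × ℕ) := Fintype.piFinset (fun _ : Fin 18 => A ×ˢ A) with hs
  set v : (Fin 18 → ℕ × ℕ) → ZMod w :=
    fun f => ∑ i, ((f i).1 : ZMod w) * ((f i).2 : ZMod w) with hv
  have hcard : (s.card : ℝ) = (A.card : ℝ) ^ 36 := by
    rw [hs, Fintype.card_piFinset]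
    simp only [Finset.card_product, Finset.prod_const, Finset.card_univ, Fintype.card_fin]
    push_cast
    ring
  have hfac : ∀ t : ZMod w, ∑ f ∈ s, (ZMod.stdAddChar (t * v f) : ℂ) = FF A t ^ 18 := by
    intro t
    have h1 : FF A t = ∑ q ∈ A ×ˢ A,
        (ZMod.stdAddChar (t * ((q.1 : ZMod w) * (q.2 : ZMod w))) : ℂ) := by
      unfold FF
      rw [Finset.sum_product]
      apply Finset.sum_congr rfl; intro a _
      apply Finset.sum_congr rfl; intro b _
      congr 1; ring
    have h2 : FF A t ^ 18 = ∏ _i : Fin 18, FF A t := by simp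
    rw [h2, h1, Finset.prod_univ_sum]
    apply Finset.sum_congr rfl; intro f _
    rw [hv]
    simp only
    rw [Finset.mul_sum, addChar_sum]
  have hc0 : (0 : ℝ) < (A.card : ℝ) ^ 36 := by
    have : 0 < A.card := Finset.card_pos.mpr hA
    positivity
  have hmain : ∑ t ∈ (univ : Finset (ZMod w)).erase 0,
      ‖∑ f ∈ s, (ZMod.stdAddChar (t * v f) : ℂ)‖ < s.card := by
    calc ∑ t ∈ (univ : Finset (ZMod w)).erase 0, ‖∑ f ∈ s, (ZMod.stdAddChar (t * v f) : ℂ)‖
        ≤ ∑ t ∈ (univ : Finset (ZMod w)).erase 0, (A.card : ℝ) ^ 36 * (1 / (red t : ℝ) ^ 3) := by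
          apply Finset.sum_le_sum
          intro t ht
          have ht0 : t ≠ 0 := Finset.ne_of_mem_erase ht
          rw [hfac t, norm_pow]
          have h := FF_pow_le A t (hgood _ (red_dvd t) (one_lt_red t ht0))
          have hr : (0 : ℝ) < (red t : ℝ) ^ 3 := by
            have : 0 < red t := red_pos t
            positivity
          rw [mul_one_div, le_div_iff₀ hr]
          exact h
      _ = (A.card : ℝ) ^ 36 * ∑ t ∈ (univ : Finset (ZMod w)).erase 0, (1 / (red t : ℝ) ^ 3) := by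
          rw [Finset.mul_sum]
      _ < (A.card : ℝ) ^ 36 * 1 := (mul_lt_mul_iff_right₀ hc0).mpr (sum_red_lt hw)
      _ = s.card := by rw [mul_one, hcard]
  obtain ⟨f, hf, hfx⟩ := exists_of_fourier s v 0 hmain
  refine ⟨f, ?_, ?_⟩
  · intro i
    have := (Fintype.mem_piFinset.mp hf) i
    exact Finset.mem_product.mp this
  · rw [← ZMod.natCast_eq_zero_iff]
    rw [← hfx, hv]
    push_cast
    rfl

end Vale.Agent.Lib.P012.LL
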