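import Vale.Agent.Lib.P012.LL.Design
import Vale.Agent.Lib.P012.LL.Gap
import Vale.Agent.Lib.P012.LL.Hit

/-! # T4: admissible moduli are dense -/

namespace Vale.Agent.Lib.P012.LL
open Finset

lemma adm_numeric (Q p m k R z σ : ℕ) (hQ : Q ≤ 4 ^ R) (hp : p ≤ 2 ^ σ) (hk1 : 4096 ^ k ≤ m)
    (hk2 : m < 4096 ^ (k + 1)) (hm : 2 ^ z ≤ m) (hz1 : 24 * R + 12 ≤ z) (hz2 : 12 * σ + 48 ≤ z) :
    (Q * (2 * p + 1024 ^ k + 2)) ^ 12 ≤ m ^ 11 := by
  have h1 : z < 12 * (k + 1) := by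
    have : 2 ^ z < 2 ^ (12 * (k + 1)) := by
      calc 2 ^ z ≤ m := hm
        _ < 4096 ^ (k + 1) := hk2
        _ = 2 ^ (12 * (k + 1)) := by rw [show (4096 : ℕ) = 2 ^ 12 by norm_num, ← pow_mul]
    exact (Nat.pow_lt_pow_iff_right (by norm_num)).mp this
  have h2 : σ + 2 ≤ 10 * k := by omega
  have h3 : 2 * p + 2 ≤ 1024 ^ k := by
    calc 2 * p + 2 ≤ 2 * 2 ^ σ + 2 * 2 ^ σ := by
          have : 1 ≤ 2 ^ σ := Nat.one_le_two_pow
          omega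
      _ = 2 ^ (σ + 2) := by ring
      _ ≤ 2 ^ (10 * k) := Nat.pow_le_pow_right (by norm_num) h2
      _ = 1024 ^ k := by rw [show (1024 : ℕ) = 2 ^ 10 by norm_num, ← pow_mul]
  have h4 : Q * (2 * p + 1024 ^ k + 2) ≤ 4 ^ R * (2 * 1024 ^ k) :=
    Nat.mul_le_mul hQ (by omega)
  calc (Q * (2 * p + 1024 ^ k + 2)) ^ 12 ≤ (4 ^ R * (2 * 1024 ^ k)) ^ 12 :=
        Nat.pow_le_pow_left h4 12
    _ = 2 ^ (24 * R + 12) * (4096 ^ k) ^ 10 := by
        rw [show (1024 : ℕ) = 2 ^ 10 by norm_num, show (4096 : ℕ) = 2 ^ 12 by norm_num,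
          show (4 : ℕ) = 2 ^ 2 by norm_num, ← pow_mul, ← pow_mul, ← pow_mul, ← pow_mul,
          ← pow_succ', ← pow_add, ← pow_mul, ← pow_add]
        congr 1; ring
    _ ≤ m * m ^ 10 :=
        Nat.mul_le_mul ((Nat.pow_le_pow_right (by norm_num) hz1).trans hm)
          (Nat.pow_le_pow_left hk1 10)
    _ = m ^ 11 := by ring

lemma zz_ge1 (μ : ℕ) : 24 * RR μ + 12 ≤ zz μ := by
  unfold RR zz
  have h : 2 ^ (12 * μ + 294) = 2 ^ (12 * μ + 288) * 64 := by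
    have e : 12 * μ + 294 = (12 * μ + 288) + 6 := by omega
    rw [e, pow_add]; rfl
  have h1 : 1 ≤ 2 ^ (12 * μ + 288) := Nat.one_le_two_pow
  rw [h]
  generalize 2 ^ (12 * μ + 288) = X at *
  omega

lemma zz_ge2 (μ : ℕ) : 12 * sig μ + 48 ≤ zz μ := by
  unfold sig zz
  have h : 2 ^ (12 * μ + 294) = 2 ^ μ * 2 ^ (11 * μ + 294) := by
    have e : 12 * μ + 294 = μ + (11 * μ + 294) := by omega
    rw [e, pow_add]
  have h1 : 2 ^ 10 ≤ 2 ^ (11 * μ + 294) := Nat.pow_le_pow_right (by norm_num) (by omega)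
  have h2 : 1 ≤ 2 ^ μ := Nat.one_le_two_pow
  rw [h]
  generalize 2 ^ (11 * μ + 294) = Y at *
  generalize 2 ^ μ = X at *
  nlinarith

theorem adm : ∃ μ₀ : ℕ, ∀ μ ≥ μ₀, ∃ D : ℕ, 0 < D ∧ D ≤ 2 ^ (2 * sig μ * nn μ) ∧
    AdmProp D (zz μ) (nu μ) := by
  obtain ⟨μ1, h1⟩ := design
  refine ⟨μ1, fun μ hμ => ?_⟩
  obtain ⟨A, pool, Exc, DA, hA, hDA0, hDA, hdvd, hpp, hpc, hps, hEs, hE0, hgood⟩ := h1 μ hμ
  have b1 := zz_ge1 μ
  have b2 := zz_ge2 μ
  refine ⟨DA * DA, Nat.mul_pos hDA0 hDA0, ?_, ?_⟩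
  · calc DA * DA ≤ 2 ^ (sig μ * nn μ) * 2 ^ (sig μ * nn μ) := Nat.mul_le_mul hDA hDA
      _ = 2 ^ (2 * sig μ * nn μ) := by rw [← pow_add]; congr 1; ring
  · intro m hm1 hm2
    generalize zz μ = z at *
    generalize RR μ = R at *
    generalize sig μ = σ at *
    generalize nu μ = ν at *
    have hm0 : 0 < m := lt_of_lt_of_le (by positivity) hm1
    have hk1 : 4096 ^ (lev m) ≤ m := Nat.pow_log_le_self 4096 hm0.ne'
    have hk2 : m < 4096 ^ (lev m + 1) := Nat.lt_pow_succ_log_self (by norm_num) m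
    have hnum := adm_numeric (primorial R) pool.card m (lev m) R z σ (primorial_le_four_pow R) hpc hk1 hk2
      hm1 b1 b2
    have hmlo : primorial R * (2 * pool.card + 1024 ^ (lev m) + 2) < m := by
      by_contra hcon
      rw [not_lt] at hcon
      have c1 : m ^ 12 ≤ m ^ 11 := (Nat.pow_le_pow_left hcon 12).trans hnum
      have c2 : 2 ≤ m := by
        have : 2 ^ 1 ≤ 2 ^ z := Nat.pow_le_pow_right (by norm_num) (by omega)
        omega
      have c3 : m ^ 11 < m ^ 12 := Nat.pow_lt_pow_right (by omega) (by norm_num)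
      omega
    obtain ⟨w, hw1, hw2, hw3, hw4⟩ := gap A pool Exc R ν hpp hps hEs hE0 hgood m hm2 hmlo
    obtain ⟨g, hg1, t, ht⟩ := hit A w hw1 hA hw4
    refine ⟨w, t, fun i => (g i).1 * (g i).2, by omega, hw2, ?_, ?_, ht.symm⟩
    · refine le_trans (Nat.pow_le_pow_left ?_ 12) hnum
      have : primorial R * (2 * pool.card + 1024 ^ (lev m) + 1)
          ≤ primorial R * (2 * pool.card + 1024 ^ (lev m) + 2) :=
        Nat.mul_le_mul_left _ (by omega)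
      omega
    · intro i
      exact Nat.mul_dvd_mul (hdvd _ (hg1 i).1) (hdvd _ (hg1 i).2)

end Vale.Agent.Lib.P012.LL
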