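import Vale.Agent.Lib.P012.LL.Defs

/-! # D3: for an injective design, `Aset` has `2^n` elements and small pairs do not collide -/

namespace Vale.Agent.Lib.P012.LL
open Finset

theorem dvd_of_mem_Aset {M n : ℕ} (pr : Fin M → ℕ) (f : Fin n → Fin M) {a : ℕ}
    (ha : a ∈ Aset pr f) : a ∣ uprod pr f Finset.univ := by
  unfold Aset at ha
  rw [Finset.mem_image] at ha
  obtain ⟨J, -, rfl⟩ := ha
  exact Finset.prod_dvd_prod_of_subset J Finset.univ _ (Finset.subset_univ J)

private theorem mem_iff_dvd {M n : ℕ} (pr : Fin M → ℕ) (hinj : Function.Injective pr)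
    (hprime : ∀ i, (pr i).Prime) (f : Fin n → Fin M) (hf : Function.Injective f)
    (J : Finset (Fin n)) (j : Fin n) : j ∈ J ↔ pr (f j) ∣ uprod pr f J := by
  constructor
  · intro hj
    exact Finset.dvd_prod_of_mem (fun j => pr (f j)) hj
  · intro hd
    unfold uprod at hd
    rw [Prime.dvd_finsetProd_iff (Nat.Prime.prime (hprime (f j)))] at hd
    obtain ⟨a, haJ, hda⟩ := hd
    have h1 : pr (f j) = pr (f a) := (Nat.prime_dvd_prime_iff_eq (hprime _) (hprime _)).1 hda
    have h2 : j = a := hf (hinj h1)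
    rw [h2]; exact haJ

private theorem uprod_injective {M n : ℕ} (pr : Fin M → ℕ) (hinj : Function.Injective pr)
    (hprime : ∀ i, (pr i).Prime) (f : Fin n → Fin M) (hf : Function.Injective f) :
    Function.Injective (uprod pr f) := by
  intro J J' h
  ext j
  rw [mem_iff_dvd pr hinj hprime f hf J j, mem_iff_dvd pr hinj hprime f hf J' j, h]

theorem card_Aset {M n : ℕ} (pr : Fin M → ℕ) (hinj : Function.Injective pr)
    (hprime : ∀ i, (pr i).Prime) (f : Fin n → Fin M) (hf : Function.Injective f) :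
    (Aset pr f).card = 2 ^ n := by
  unfold Aset
  rw [Finset.card_image_of_injective _ (uprod_injective pr hinj hprime f hf), Finset.card_univ,
    Fintype.card_finset, Fintype.card_fin]

private theorem uprod_split {M n : ℕ} (pr : Fin M → ℕ) (f : Fin n → Fin M)
    (J J' : Finset (Fin n)) : uprod pr f J = uprod pr f (J ∩ J') * uprod pr f (J \ J') := by
  unfold uprod
  rw [← Finset.prod_union (Finset.disjoint_sdiff_inter J J').symm]
  rw [Finset.union_comm, Finset.sdiff_union_inter]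

private theorem uprod_le {M n : ℕ} (pr : Fin M → ℕ) (σ : ℕ) (hle : ∀ i, pr i ≤ 2 ^ σ)
    (f : Fin n → Fin M) (J : Finset (Fin n)) : uprod pr f J ≤ (2 ^ σ) ^ J.card := by
  unfold uprod
  exact Finset.prod_le_pow_card _ _ _ (fun j _ => hle (f j))

private theorem uprod_coprime {M n : ℕ} (pr : Fin M → ℕ)
    (hprime : ∀ i, (pr i).Prime) (f : Fin n → Fin M) (e : ℕ) (hcop : ∀ i, ¬ pr i ∣ e)
    (J : Finset (Fin n)) : Nat.Coprime (uprod pr f J) e := by
  unfold uprod
  apply Nat.Coprime.prod_left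
  intro j _
  exact (Nat.Prime.coprime_iff_not_dvd (hprime (f j))).2 (hcop (f j))

private theorem eq_of_small {M n : ℕ} (pr : Fin M → ℕ) (hinj : Function.Injective pr)
    (hprime : ∀ i, (pr i).Prime) (σ : ℕ) (hle : ∀ i, pr i ≤ 2 ^ σ)
    (f : Fin n → Fin M) (hf : Function.Injective f)
    (e h : ℕ) (hcop : ∀ i, ¬ pr i ∣ e) (hh : 1 ≤ h) (he : (2 ^ σ) ^ (h - 1) < e)
    (J J' : Finset (Fin n)) (hc : uprod pr f J ≡ uprod pr f J' [MOD e])
    (h1 : (J \ J').card < h) (h2 : (J' \ J).card < h) : J = J' := by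
  rw [uprod_split pr f J J', uprod_split pr f J' J, Finset.inter_comm J' J] at hc
  have hcp : Nat.gcd e (uprod pr f (J ∩ J')) = 1 :=
    Nat.Coprime.symm (uprod_coprime pr hprime f e hcop (J ∩ J'))
  have hc' := Nat.ModEq.cancel_left_of_coprime hcp hc
  have hpos : 1 ≤ 2 ^ σ := Nat.one_le_two_pow
  have b1 : uprod pr f (J \ J') < e :=
    lt_of_le_of_lt ((uprod_le pr σ hle f _).trans (Nat.pow_le_pow_right hpos (by omega))) he
  have b2 : uprod pr f (J' \ J) < e :=
    lt_of_le_of_lt ((uprod_le pr σ hle f _).trans (Nat.pow_le_pow_right hpos (by omega))) he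
  have heq : uprod pr f (J \ J') = uprod pr f (J' \ J) := Nat.ModEq.eq_of_lt_of_lt hc' b1 b2
  have hs : J \ J' = J' \ J := uprod_injective pr hinj hprime f hf heq
  ext x
  constructor
  · intro hx
    by_contra hx'
    have : x ∈ J \ J' := Finset.mem_sdiff.2 ⟨hx, hx'⟩
    rw [hs] at this
    exact hx' (Finset.mem_sdiff.1 this).1
  · intro hx
    by_contra hx'
    have : x ∈ J' \ J := Finset.mem_sdiff.2 ⟨hx, hx'⟩
    rw [← hs] at this
    exact hx' (Finset.mem_sdiff.1 this).1

theorem EE_Aset_le {M n : ℕ} (pr : Fin M → ℕ) (hinj : Function.Injective pr)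
    (hprime : ∀ i, (pr i).Prime) (σ : ℕ) (hle : ∀ i, pr i ≤ 2 ^ σ)
    (f : Fin n → Fin M) (hf : Function.Injective f)
    (e h : ℕ) (hcop : ∀ i, ¬ pr i ∣ e) (hh : 1 ≤ h) (he : (2 ^ σ) ^ (h - 1) < e) :
    EE (Aset pr f) e ≤ 2 ^ n + TrJ pr f e h := by
  classical
  set T : Finset (Finset (Fin n) × Finset (Fin n)) :=
    (Finset.univ : Finset (Finset (Fin n) × Finset (Fin n))).filter (fun P =>
    (h ≤ (P.1 \ P.2).card ∨ h ≤ (P.2 \ P.1).card) ∧
      uprod pr f P.1 ≡ uprod pr f P.2 [MOD e]) with hT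
  set Dg : Finset (Finset (Fin n) × Finset (Fin n)) :=
    (Finset.univ : Finset (Finset (Fin n))).image (fun J => (J, J)) with hDg
  have hDcard : Dg.card ≤ 2 ^ n := by
    refine Finset.card_image_le.trans ?_
    rw [Finset.card_univ, Fintype.card_finset, Fintype.card_fin]
  have hsub : ((Aset pr f ×ˢ Aset pr f).filter (fun q => q.1 ≡ q.2 [MOD e])) ⊆
      (Dg ∪ T).image (fun P => (uprod pr f P.1, uprod pr f P.2)) := by
    intro q hq
    rw [Finset.mem_filter, Finset.mem_product] at hq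
    obtain ⟨⟨hq1, hq2⟩, hc⟩ := hq
    unfold Aset at hq1 hq2
    rw [Finset.mem_image] at hq1 hq2
    obtain ⟨J, -, hJ⟩ := hq1
    obtain ⟨J', -, hJ'⟩ := hq2
    rw [Finset.mem_image]
    refine ⟨(J, J'), ?_, by rw [hJ, hJ']⟩
    rw [Finset.mem_union]
    by_cases hsm : h ≤ (J \ J').card ∨ h ≤ (J' \ J).card
    · right
      rw [hT, Finset.mem_filter]
      refine ⟨Finset.mem_univ _, hsm, ?_⟩
      show uprod pr f J ≡ uprod pr f J' [MOD e]
      rw [hJ, hJ']; exact hc
    · left
      rw [not_or] at hsm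
      have hJJ : J = J' := eq_of_small pr hinj hprime σ hle f hf e h hcop hh he J J'
        (by rw [hJ, hJ']; exact hc) (by omega) (by omega)
      rw [hDg, Finset.mem_image]
      exact ⟨J, Finset.mem_univ _, by rw [hJJ]⟩
  calc EE (Aset pr f) e
      = ((Aset pr f ×ˢ Aset pr f).filter (fun q => q.1 ≡ q.2 [MOD e])).card := rfl
    _ ≤ ((Dg ∪ T).image (fun P => (uprod pr f P.1, uprod pr f P.2))).card :=
        Finset.card_le_card hsub
    _ ≤ (Dg ∪ T).card := Finset.card_image_le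
    _ ≤ Dg.card + T.card := Finset.card_union_le _ _
    _ ≤ 2 ^ n + TrJ pr f e h := by
        have : T.card = TrJ pr f e h := rfl
        omega

end Vale.Agent.Lib.P012.LL
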