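import Vale.Agent.Lib.P012.LL.Defs

/-! # T6: the top part, by the greedy (Sylvester) algorithm -/

namespace Vale.Agent.Lib.P012.LL
open Finset

/-- growth function of the products. -/
def gg (k : ℕ) : ℕ := if k = 0 then 1 else 2 ^ (2 ^ (k - 1))

lemma gg_zero : gg 0 = 1 := rfl

lemma gg_one : gg 1 = 2 := rfl

lemma gg_succ (k : ℕ) : gg (k + 1) = 2 ^ (2 ^ k) := by
  simp [gg]

lemma gg_succ_succ (k : ℕ) : gg (k + 2) = gg (k + 1) ^ 2 := by
  rw [gg_succ, gg_succ, ← pow_mul, pow_succ]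

/-- state of the greedy algorithm. -/
structure GState (a b T : ℕ) (S : Finset ℕ) (a' P : ℕ) : Prop where
  mem : ∀ n ∈ S, 2 ≤ n ∧ n ≤ P
  pos : 0 < P
  le : P ≤ T ^ 2
  lt : a' < b
  eq : (a : ℚ) / b = ∑ n ∈ S, (1 : ℚ) / n + (a' : ℚ) / ((b * P : ℕ) : ℚ)

lemma gstep {a b T : ℕ} {S : Finset ℕ} {a' P : ℕ} (h : GState a b T S a' P)
    (hns : b * P ≤ a' * T) :
    ∃ (n a'' : ℕ), P < n ∧ n ≤ T ∧ n ∉ S ∧ GState a b T (insert n S) a'' (P * n) := by
  have hb : 0 < b := lt_of_le_of_lt (Nat.zero_le _) h.lt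
  have hP := h.pos
  have hbP : 0 < b * P := Nat.mul_pos hb hP
  have ha' : 0 < a' := by
    rcases Nat.eq_zero_or_pos a' with h0 | h0
    · rw [h0, zero_mul] at hns
      omega
    · exact h0
  obtain ⟨q, hq⟩ : ∃ q, q = (b * P - 1) / a' := ⟨_, rfl⟩
  have h1 : q * a' ≤ b * P - 1 := by
    rw [hq]
    exact Nat.div_mul_le_self _ _
  have h2 : b * P - 1 < a' * (q + 1) := by
    rw [hq]
    exact Nat.lt_mul_div_succ _ ha'
  have h2' : b * P ≤ a' * (q + 1) := by omega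
  have hqT : q < T := by
    rw [hq, Nat.div_lt_iff_lt_mul ha']
    have : a' * T = T * a' := mul_comm _ _
    omega
  have hPq : P < q + 1 := by
    by_contra hcon
    rw [not_lt] at hcon
    have e1 : a' * (q + 1) ≤ a' * P := Nat.mul_le_mul_left _ hcon
    have e2 : a' * P < b * P := Nat.mul_lt_mul_of_pos_right h.lt hP
    omega
  have hnS : q + 1 ∉ S := by
    intro hmem
    have := (h.mem _ hmem).2
    omega
  refine ⟨q + 1, a' * (q + 1) - b * P, hPq, hqT, hnS, ?_⟩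
  constructor
  · intro n hn
    rcases Finset.mem_insert.mp hn with rfl | hn
    · refine ⟨by omega, ?_⟩
      exact Nat.le_mul_of_pos_left _ hP
    · obtain ⟨e1, e2⟩ := h.mem n hn
      refine ⟨e1, e2.trans ?_⟩
      exact Nat.le_mul_of_pos_right _ (by omega)
  · exact Nat.mul_pos hP (by omega)
  · have e1 : P ≤ T := by omega
    have e2 : q + 1 ≤ T := hqT
    calc P * (q + 1) ≤ T * T := Nat.mul_le_mul e1 e2
      _ = T ^ 2 := (sq T).symm
  · have e1 : a' * (q + 1) = q * a' + a' := by ring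
    have := h.lt
    omega
  · rw [Finset.sum_insert hnS, h.eq]
    have c1 : ((a' * (q + 1) - b * P : ℕ) : ℚ) = (a' : ℚ) * ((q : ℚ) + 1) - (b : ℚ) * P := by
      rw [Nat.cast_sub h2']
      push_cast
      ring
    rw [c1]
    have hbq : (b : ℚ) ≠ 0 := by exact_mod_cast hb.ne'
    have hPq' : (P : ℚ) ≠ 0 := by exact_mod_cast hP.ne'
    have hq1 : ((q : ℚ) + 1) ≠ 0 := by positivity
    push_cast
    field_simp
    ring

lemma giter {a b T : ℕ} (hab : a < b) (hT : 2 ≤ T) (k : ℕ) :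
    ∃ (S : Finset ℕ) (a' P : ℕ), GState a b T S a' P ∧ S.card ≤ k ∧
      (a' * T < b * P ∨ gg k ≤ P) := by
  induction k with
  | zero =>
    refine ⟨∅, a, 1, ⟨by simp, one_pos, Nat.one_le_pow _ _ (by omega), hab, by simp⟩, by simp,
      Or.inr (by simp [gg_zero])⟩
  | succ k ih =>
    obtain ⟨S, a', P, hst, hcard, hor⟩ := ih
    by_cases hstop : a' * T < b * P
    · exact ⟨S, a', P, hst, by omega, Or.inl hstop⟩
    · have hg : gg k ≤ P := by
        rcases hor with h | h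
        · exact absurd h hstop
        · exact h
      obtain ⟨n, a'', hPn, _, hnS, hst'⟩ := gstep hst (not_lt.mp hstop)
      refine ⟨insert n S, a'', P * n, hst', ?_, Or.inr ?_⟩
      · rw [Finset.card_insert_of_notMem hnS]
        omega
      · rcases k with _ | k
        · rw [gg_one]
          have := hst.pos
          calc 2 ≤ 1 * n := by omega
            _ ≤ P * n := Nat.mul_le_mul_right _ this
        · rw [gg_succ_succ, sq]
          exact Nat.mul_le_mul hg (hg.trans hPn.le)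

theorem greedy_top (a b T : ℕ) (ha : 1 ≤ a) (hab : a < b) (hT : 2 ≤ T) :
    ∃ (S0 : Finset ℕ) (a' P : ℕ), (∀ n ∈ S0, 2 ≤ n) ∧
      S0.card ≤ Nat.log 2 (Nat.log 2 T) + 3 ∧ 0 < P ∧ P ≤ T ^ 2 ∧
      (a : ℚ) / b = ∑ n ∈ S0, (1 : ℚ) / n + (a' : ℚ) / ((b * P : ℕ) : ℚ) ∧
      (a' : ℚ) / ((b * P : ℕ) : ℚ) < 1 / T ∧
      ∀ n ∈ S0, (a' : ℚ) / ((b * P : ℕ) : ℚ) < 1 / n := by
  obtain ⟨S, a', P, hst, hcard, hor⟩ := giter hab hT (Nat.log 2 (Nat.log 2 T) + 2)
  have hb : 0 < b := by omega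
  have hbP : 0 < b * P := Nat.mul_pos hb hst.pos
  have hstop : a' * T < b * P := by
    rcases hor with h | h
    · exact h
    · by_contra hcon
      obtain ⟨n, a'', hPn, hnT, _, _⟩ := gstep hst (not_lt.mp hcon)
      rw [gg_succ] at h
      have h1 : Nat.log 2 T < 2 ^ (Nat.log 2 (Nat.log 2 T) + 1) :=
        Nat.lt_pow_succ_log_self (by norm_num) _
      have h2 : T < 2 ^ (Nat.log 2 T + 1) := Nat.lt_pow_succ_log_self (by norm_num) _
      have h3 : 2 ^ (Nat.log 2 T + 1) ≤ 2 ^ (2 ^ (Nat.log 2 (Nat.log 2 T) + 1)) :=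
        Nat.pow_le_pow_right (by norm_num) h1
      omega
  have hbPq : (0 : ℚ) < ((b * P : ℕ) : ℚ) := by exact_mod_cast hbP
  refine ⟨S, a', P, fun n hn => (hst.mem n hn).1, by omega, hst.pos, hst.le, hst.eq, ?_, ?_⟩
  · have hTq : (0 : ℚ) < (T : ℚ) := by exact_mod_cast (by omega : 0 < T)
    rw [div_lt_div_iff₀ hbPq hTq, one_mul]
    exact_mod_cast hstop
  · intro n hn
    obtain ⟨e1, e2⟩ := hst.mem n hn
    have hnq : (0 : ℚ) < (n : ℚ) := by exact_mod_cast (by omega : 0 < n)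
    rw [div_lt_div_iff₀ hbPq hnq, one_mul]
    have h1 : a' * n ≤ a' * P := Nat.mul_le_mul_left _ e2
    have h2 : a' * P < b * P := Nat.mul_lt_mul_of_pos_right hst.lt hst.pos
    exact_mod_cast lt_of_le_of_lt h1 h2

end Vale.Agent.Lib.P012.LL
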