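import Vale.Agent.Lib.P012.LL.Defs

/-! # T7: making the denominators distinct by merging `1/n + 1/n = 1/(n/2)` -/

namespace Vale.Agent.Lib.P012.LL
open Finset

private theorem merge_aux : ∀ (k : ℕ) (l : Multiset ℕ), Multiset.card l = k →
    (∀ n ∈ l, 0 < n) → (∀ n ∈ l, 2 ^ (Multiset.card l) ∣ n) →
    ∃ S : Finset ℕ, S.card ≤ Multiset.card l ∧ (∀ n ∈ S, 2 ≤ n) ∧
      ∑ n ∈ S, (1 : ℚ) / n = (l.map (fun n : ℕ => (1 : ℚ) / n)).sum := by
  intro k
  induction k using Nat.strong_induction_on with
  | _ k ih =>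
    intro l hk hpos hdvd
    by_cases hnd : l.Nodup
    · refine ⟨⟨l, hnd⟩, le_refl _, ?_, rfl⟩
      intro n hn
      have hn' : n ∈ l := hn
      have hc : 1 ≤ Multiset.card l := Multiset.card_pos_iff_exists_mem.2 ⟨n, hn'⟩
      have h2 : 2 ∣ n := (dvd_pow_self 2 (by omega)).trans (hdvd n hn')
      exact Nat.le_of_dvd (hpos n hn') h2
    · rw [Multiset.nodup_iff_le] at hnd
      simp only [not_forall, not_not] at hnd
      obtain ⟨a, ha⟩ := hnd
      obtain ⟨l', hl'⟩ := Multiset.le_iff_exists_add.1 ha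
      have hcard : Multiset.card l = Multiset.card l' + 2 := by
        rw [hl']; simp [add_comm]; omega
      have hal : a ∈ l := by rw [hl']; simp
      have hsub : ∀ n ∈ l', n ∈ l := by
        intro n hn; rw [hl']; simp [hn]
      obtain ⟨m, hm⟩ := hdvd a hal
      rw [hcard] at hm
      have hapos := hpos a hal
      have ha2 : a / 2 = 2 ^ (Multiset.card l' + 1) * m := by
        rw [hm, pow_succ]
        rw [mul_assoc, mul_comm 2 m, ← mul_assoc]
        exact Nat.mul_div_cancel _ (by norm_num)
      have h2a : 2 ∣ a := by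
        rw [hm, pow_succ]
        exact ⟨2 ^ (Multiset.card l' + 1) * m, by ring⟩
      have hmpos : 0 < m := by
        rcases Nat.eq_zero_or_pos m with h | h
        · rw [h] at hm; omega
        · exact h
      have hc'' : Multiset.card ((a / 2) ::ₘ l') = Multiset.card l' + 1 := by simp
      obtain ⟨S, hS1, hS2, hS3⟩ := ih (Multiset.card l' + 1) (by omega) ((a / 2) ::ₘ l') hc''
        (by
          intro n hn
          rcases Multiset.mem_cons.1 hn with h | h
          · rw [h, ha2]; positivity
          · exact hpos n (hsub n h))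
        (by
          intro n hn
          rw [hc'']
          rcases Multiset.mem_cons.1 hn with h | h
          · rw [h, ha2]; exact Dvd.intro _ rfl
          · have := hdvd n (hsub n h)
            rw [hcard] at this
            exact (pow_dvd_pow 2 (by omega)).trans this)
      refine ⟨S, by omega, hS2, ?_⟩
      rw [hS3, hl']
      have hcast : ((a / 2 : ℕ) : ℚ) = (a : ℚ) / 2 := by
        rw [Nat.cast_div h2a (by norm_num)]
        norm_num
      have ha0 : (a : ℚ) ≠ 0 := by exact_mod_cast hapos.ne'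
      simp only [Multiset.map_cons, Multiset.sum_cons, Multiset.map_add, Multiset.sum_add,
        Multiset.map_zero, Multiset.sum_zero, hcast]
      field_simp
      ring

theorem merge (l : Multiset ℕ) (hpos : ∀ n ∈ l, 0 < n)
    (hdvd : ∀ n ∈ l, 2 ^ (Multiset.card l) ∣ n) :
    ∃ S : Finset ℕ, S.card ≤ Multiset.card l ∧ (∀ n ∈ S, 2 ≤ n) ∧
      ∑ n ∈ S, (1 : ℚ) / n = (l.map (fun n : ℕ => (1 : ℚ) / n)).sum :=
  merge_aux _ l rfl hpos hdvd

end Vale.Agent.Lib.P012.LL
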