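import Vale.Agent.Lib.P012.LL.RepAll
import Vale.Agent.Lib.P012.LL.Greedy
import Vale.Agent.Lib.P012.LL.Merge

/-! # T9a: assembly, parameter-free version -/

namespace Vale.Agent.Lib.P012.LL
open Finset

theorem core_generic {D Ns hs ν z0 E jB g n : ℕ} (hD : 0 < D) (hNs : Good Ns hs)
    (hNs0 : 2 ^ z0 ≤ Ns) (hz0 : 132 ≤ z0) (hν : ν = z0 * 2 ^ jB) (hg : 12 * g + 11 ≤ ν)
    (hg0 : 0 < g) (hadm : AdmProp D z0 ν) (H T : ℕ)
    (hH : H = 2 * (hs + 216 * jB + 18 * (E / g + 1))) (hT : T = 2 ^ H * D * Ns)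
    (hsize : 2 ^ n * T ^ 2 ≤ 2 ^ E)
    (a b : ℕ) (ha : 1 ≤ a) (hab : a < b) (hb : b ≤ 2 ^ n) :
    ∃ S : Finset ℕ, (∀ n ∈ S, 2 ≤ n) ∧ ∑ n ∈ S, (1 / (n : ℚ)) = (a : ℚ) / b ∧
      S.card ≤ Nat.log 2 (Nat.log 2 T) + 3 + H := by
  have hPP : ∀ q : ℕ, q < 2 ^ E → URep ((q : ℚ) / ((2 ^ E * D * Ns : ℕ) : ℚ))
      (hs + 216 * jB + 18 * (E / g + 1)) := rep_all (E := E) hD hNs hNs0 hz0 hν hg hg0 hadm
  generalize hs + 216 * jB + 18 * (E / g + 1) = kk at hPP hH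
  have hkk : 0 ≤ kk := Nat.zero_le _
  have hNspos : 0 < Ns := lt_of_lt_of_le (by positivity) hNs0
  have hT2 : 2 ≤ T := by
    rw [hT]
    have h1 : 1 ≤ 2 ^ H := Nat.one_le_two_pow
    have h2 : 2 ^ 1 ≤ 2 ^ z0 := Nat.pow_le_pow_right (by norm_num) (by omega)
    calc 2 = 1 * 1 * 2 ^ 1 := by norm_num
      _ ≤ 2 ^ H * D * Ns := Nat.mul_le_mul (Nat.mul_le_mul h1 hD) (h2.trans hNs0)
  obtain ⟨S0, a', P, hS0, hcard0, hP0, hPT, hsum, hlt, hltn⟩ := greedy_top a b T ha hab hT2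
  have hb0 : 0 < b := by omega
  set B := b * P with hB
  have hB0 : 0 < B := Nat.mul_pos hb0 hP0
  set K := 2 ^ E * D * Ns with hK
  have hK0 : 0 < K := by rw [hK]; positivity
  have hTpos : 0 < T := by omega
  -- `a' * T < B`
  have haT : a' * T < B := by
    have h1 : (a' : ℚ) / (B : ℚ) < 1 / T := hlt
    rw [div_lt_div_iff₀ (by exact_mod_cast hB0) (by exact_mod_cast hTpos)] at h1
    have h2 : ((a' * T : ℕ) : ℚ) < ((1 * B : ℕ) : ℚ) := by push_cast; exact h1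
    have h3 := Nat.cast_lt.mp h2
    omega
  have hK' : 2 ^ H * K = T * 2 ^ E := by rw [hK, hT]; ring
  set q := a' * (2 ^ H * K) / B with hq
  set r := a' * (2 ^ H * K) % B with hr
  have hdiv : B * q + r = a' * (2 ^ H * K) := Nat.div_add_mod _ _
  have hqE : q < 2 ^ E := by
    rw [hq, Nat.div_lt_iff_lt_mul hB0, hK']
    calc a' * (T * 2 ^ E) = (a' * T) * 2 ^ E := by ring
      _ < B * 2 ^ E := Nat.mul_lt_mul_of_pos_right haT (by positivity)
      _ = 2 ^ E * B := by ring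
  have hrE : r < 2 ^ E := by
    have h1 : r < B := Nat.mod_lt _ hB0
    have h2 : B ≤ 2 ^ n * T ^ 2 := Nat.mul_le_mul hb hPT
    omega
  obtain ⟨l1, hl1c, hl1, hl1s⟩ := (hPP q hqE).scale (2 ^ H) (by positivity)
  obtain ⟨l2, hl2c, hl2, hl2s⟩ := (hPP r hrE).scale (2 ^ H * B) (by positivity)
  have hlc : Multiset.card (l1 + l2) ≤ H := by rw [Multiset.card_add]; omega
  have hlpos : ∀ n ∈ l1 + l2, 0 < n := by
    intro n hn
    rcases Multiset.mem_add.mp hn with h | h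
    · exact (hl1 n h).1
    · exact (hl2 n h).1
  have hldvd : ∀ n ∈ l1 + l2, 2 ^ (Multiset.card (l1 + l2)) ∣ n := by
    intro n hn
    have h1 : 2 ^ (Multiset.card (l1 + l2)) ∣ 2 ^ H := pow_dvd_pow 2 hlc
    rcases Multiset.mem_add.mp hn with h | h
    · exact h1.trans (hl1 n h).2
    · exact h1.trans ((Dvd.intro _ rfl).trans (hl2 n h).2)
  obtain ⟨S1, hS1c, hS1, hS1s⟩ := merge (l1 + l2) hlpos hldvd
  have hS1sum : ∑ n ∈ S1, (1 : ℚ) / n = (a' : ℚ) / (B : ℚ) := by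
    rw [hS1s, Multiset.map_add, Multiset.sum_add, hl1s, hl2s]
    have hBq : (B : ℚ) ≠ 0 := by exact_mod_cast hB0.ne'
    have hKq : (K : ℚ) ≠ 0 := by exact_mod_cast hK0.ne'
    have h2 : ((2 : ℚ) ^ H) ≠ 0 := by positivity
    have hd : (B : ℚ) * q + r = a' * (2 ^ H * K) := by exact_mod_cast hdiv
    push_cast
    field_simp
    linear_combination hd
  have hdisj : Disjoint S0 S1 := by
    rw [Finset.disjoint_left]
    intro n hn0 hn1
    have h1 : (1 : ℚ) / n ≤ ∑ n ∈ S1, (1 : ℚ) / n :=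
      Finset.single_le_sum (f := fun n : ℕ => (1 : ℚ) / n) (fun i _ => by positivity) hn1
    have h2 := hltn n hn0
    rw [hS1sum] at h1
    exact absurd h2 (not_lt.mpr h1)
  refine ⟨S0 ∪ S1, ?_, ?_, ?_⟩
  · intro n hn
    rcases Finset.mem_union.mp hn with h | h
    · exact hS0 n h
    · exact hS1 n h
  · rw [Finset.sum_union hdisj, hS1sum, hsum]
  · calc (S0 ∪ S1).card ≤ S0.card + S1.card := Finset.card_union_le _ _
      _ ≤ Nat.log 2 (Nat.log 2 T) + 3 + H := by omega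

end Vale.Agent.Lib.P012.LL
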