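import Vale.Agent.Lib.P012.LL.Defs

/-! # T8: the old construction with an upper bound for `N` -/

namespace Vale.Agent.Lib.P012.LL
open Finset

private lemma level_up' {i u N h : ℕ} (hi : 11 ≤ i) (hu : 2 ^ i ≤ u) (hu2 : u < 2 ^ (i + 1))
    (hinv : Inv u N h) :
    ∃ u' N' h', 2 ^ (i + 1) ≤ u' ∧ u' < 2 ^ (i + 2) ∧ Inv u' N' h' ∧
      h' ≤ h + 4 * (2 * (96 * i + 241)) := by
  have hrle : rho i ≤ 2 ^ i := Nat.div_le_self _ _
  have hp1 : 2 ^ (i + 1) = 2 * 2 ^ i := by rw [pow_succ]; ring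
  have hp2 : 2 ^ (i + 2) = 4 * 2 ^ i := by rw [pow_add]; ring
  have claim : ∀ j : ℕ, ∃ u' N' h',
      ((2 ^ (i + 1) ≤ u' ∧ u' < 2 ^ (i + 2)) ∨ (2 ^ i + j * rho i ≤ u' ∧ u' < 2 ^ (i + 1))) ∧
      Inv u' N' h' ∧ h' ≤ h + 4 * j := by
    intro j
    induction j with
    | zero => exact ⟨u, N, h, Or.inr ⟨by simpa using hu, hu2⟩, hinv, by omega⟩
    | succ j ih =>
      obtain ⟨u', N', h', hor, hinv', hh'⟩ := ih
      rcases hor with h1 | ⟨hge, hlt⟩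
      · exact ⟨u', N', h', Or.inl h1, hinv', by omega⟩
      · obtain ⟨N'', hinv''⟩ := main_step hi (by omega) hlt hinv'
        have hmul : (j + 1) * rho i = j * rho i + rho i := by ring
        by_cases hbig : 2 ^ (i + 1) ≤ u' + rho i
        · exact ⟨u' + rho i, N'', h' + 4, Or.inl ⟨hbig, by omega⟩, hinv'', by omega⟩
        · exact ⟨u' + rho i, N'', h' + 4, Or.inr ⟨by omega, by omega⟩, hinv'', by omega⟩
  obtain ⟨u', N', h', hor, hinv', hh'⟩ := claim (2 * (96 * i + 241))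
  rcases hor with h1 | ⟨h1, h1'⟩
  · exact ⟨u', N', h', h1.1, h1.2, hinv', hh'⟩
  · exfalso
    have hpos : 0 < rho i := rho_pos hi
    have h2 : 2 ^ i < (96 * i + 241) * (2 ^ i / (96 * i + 241) + 1) :=
      Nat.lt_mul_div_succ _ (by omega)
    have h3 : (96 * i + 241) * (rho i + 1) ≤ 2 * (96 * i + 241) * rho i := by
      have : rho i + 1 ≤ 2 * rho i := by omega
      calc (96 * i + 241) * (rho i + 1) ≤ (96 * i + 241) * (2 * rho i) :=
            Nat.mul_le_mul_left _ this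
        _ = 2 * (96 * i + 241) * rho i := by ring
    have h4 : 2 ^ i < (96 * i + 241) * (rho i + 1) := h2
    omega

private lemma levels_aux : ∃ h0 : ℕ, ∀ i ≥ 11, ∃ u N h, 2 ^ i ≤ u ∧ u < 2 ^ (i + 1) ∧ Inv u N h ∧
    h ≤ h0 + 1000 * (i + 1) ^ 2 := by
  obtain ⟨N0, h0, hinv0⟩ := base_case (2 ^ 11)
  refine ⟨h0, ?_⟩
  intro i hi
  induction i, hi using Nat.le_induction with
  | base => exact ⟨2 ^ 11, N0, h0, le_rfl, by norm_num, hinv0, by omega⟩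
  | succ k hk ih =>
    obtain ⟨u, N, h, hu, hu2, hinv, hh⟩ := ih
    obtain ⟨u', N', h', hu', hu2', hinv', hh'⟩ := level_up' hk hu hu2 hinv
    refine ⟨u', N', h', hu', hu2', hinv', ?_⟩
    have : 1000 * (k + 1 + 1) ^ 2 = 1000 * (k + 1) ^ 2 + 2000 * k + 3000 := by ring
    omega

theorem levels' : ∃ h0 : ℕ, ∀ i ≥ 11, ∃ N h : ℕ, 2 ^ (2 ^ i) ≤ N ∧ N ≤ 2 ^ (4 ^ (i + 2)) ∧
    Good N h ∧ h ≤ h0 + 1000 * (i + 1) ^ 2 := by
  obtain ⟨h0, H⟩ := levels_aux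
  refine ⟨h0, ?_⟩
  intro i hi
  obtain ⟨u, N, h, hu, hu2, hinv, hh⟩ := H i hi
  refine ⟨N, h, ?_, ?_, ?_, hh⟩
  · exact (Nat.pow_le_pow_right (by norm_num) hu).trans (le_of_inv hinv)
  · obtain ⟨_, _, _, _, _, _, _, _, hN, _⟩ := hinv
    refine hN.trans (Nat.pow_le_pow_right (by norm_num) ?_)
    have h1 : u + 1 ≤ 2 ^ (i + 1) := hu2
    calc 4 * (u + 1) ^ 2 ≤ 4 * (2 ^ (i + 1)) ^ 2 :=
          Nat.mul_le_mul_left _ (Nat.pow_le_pow_left h1 2)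
      _ = 4 ^ (i + 2) := by
          rw [← pow_mul, mul_comm (i + 1) 2, pow_mul, pow_succ 4 (i + 1)]
          norm_num
          ring
  · obtain ⟨_, _, _, _, _, _, _, _, _, hg⟩ := hinv
    exact hg

end Vale.Agent.Lib.P012.LL
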