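import Vale.Agent.Lib.P012.LL.Adm
import Vale.Agent.Lib.P012.LL.CoreGeneric
import Vale.Agent.Lib.P012.LL.Levels

/-! # T9: assembly -/

namespace Vale.Agent.Lib.P012.LL
open Finset

lemma num1 {μ : ℕ} (hμ : 12 ≤ μ) : 24 * μ + 593 ≤ 2 ^ μ := by
  induction μ, hμ using Nat.le_induction with
  | base => norm_num
  | succ k hk ih => rw [pow_succ]; omega

lemma num2 {μ : ℕ} (hμ : 12 ≤ μ) : (12 * μ + 295) ^ 2 ≤ 50 * 2 ^ μ := by
  induction μ, hμ using Nat.le_induction with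
  | base => norm_num
  | succ k hk ih =>
    have h1 : (12 * (k + 1) + 295) ^ 2 ≤ 2 * (12 * k + 295) ^ 2 := by nlinarith
    calc (12 * (k + 1) + 295) ^ 2 ≤ 2 * (12 * k + 295) ^ 2 := h1
      _ ≤ 2 * (50 * 2 ^ k) := Nat.mul_le_mul_left _ ih
      _ = 50 * 2 ^ (k + 1) := by ring

/-- pure arithmetic part of the assembly. -/
lemma core_numeric {μ τ n X hs jB G H D Ns I T E : ℕ}
    (hτ : τ = 2 ^ μ) (hn : n = 2 ^ τ) (hX : X = τ * n) (hτ21 : 21 ≤ τ) (hμτ : μ + 7 ≤ τ)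
    (hhs : hs ≤ 50001 * τ) (hjB : jB ≤ τ) (hG : G ≤ 20800 * τ)
    (hH : H = 2 * (hs + 216 * jB + 18 * (G + 1)))
    (hD : D ≤ 2 ^ (96 * X)) (hNs : Ns ≤ 2 ^ I) (hI : 2 * I ≤ n) (hT : T = 2 ^ H * D * Ns)
    (hT0 : 0 < T) (hE : E = 200 * X) :
    2 ^ n * T ^ 2 ≤ 2 ^ E ∧ Nat.log 2 (Nat.log 2 T) + 3 + H ≤ 10 ^ 6 * τ := by
  have hτ1 : 1 ≤ τ := by omega
  have hH1 : H ≤ 850000 * τ := by omega
  have hn1 : 2 ^ 21 ≤ n := by rw [hn]; exact Nat.pow_le_pow_right (by norm_num) hτ21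
  have hnX : n ≤ X := by rw [hX]; exact Nat.le_mul_of_pos_left _ (by omega)
  have hHX : 2 * H ≤ X := by
    have : 1700000 * τ ≤ τ * n := by
      rw [mul_comm]; exact Nat.mul_le_mul_left _ (by norm_num at hn1; omega)
    omega
  have hTle : T ≤ 2 ^ (H + 96 * X + I) := by
    rw [hT, pow_add, pow_add]
    exact Nat.mul_le_mul (Nat.mul_le_mul le_rfl hD) hNs
  constructor
  · calc 2 ^ n * T ^ 2 ≤ 2 ^ n * (2 ^ (H + 96 * X + I)) ^ 2 :=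
          Nat.mul_le_mul_left _ (Nat.pow_le_pow_left hTle 2)
      _ = 2 ^ (n + (H + 96 * X + I) * 2) := by rw [← pow_mul, ← pow_add]
      _ ≤ 2 ^ E := Nat.pow_le_pow_right (by norm_num) (by omega)
  · have h1 : Nat.log 2 T < H + 96 * X + I + 1 := by
      apply Nat.log_lt_of_lt_pow hT0.ne'
      calc T ≤ 2 ^ (H + 96 * X + I) := hTle
        _ < 2 ^ (H + 96 * X + I + 1) := Nat.pow_lt_pow_right (by norm_num) (by omega)
    have h2 : Nat.log 2 T < 2 ^ (7 + μ + τ) := by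
      have : 2 ^ (7 + μ + τ) = 128 * X := by
        rw [hX, hn, pow_add, pow_add, ← hτ]; norm_num [mul_assoc]
      omega
    have h3 : Nat.log 2 (Nat.log 2 T) ≤ 7 + μ + τ := by
      by_cases h0 : Nat.log 2 T = 0
      · rw [h0]; simp
      · exact (Nat.log_lt_of_lt_pow h0 h2).le
    omega

theorem core : ∃ μ₀ C₁ : ℕ, ∀ μ ≥ μ₀, ∀ a b : ℕ, 1 ≤ a → a < b → b ≤ 2 ^ (nn μ) →
    ∃ S : Finset ℕ, (∀ n ∈ S, 2 ≤ n) ∧ ∑ n ∈ S, (1 / (n : ℚ)) = (a : ℚ) / b ∧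
      S.card ≤ C₁ * 2 ^ μ := by
  obtain ⟨μ1, hadm⟩ := adm
  obtain ⟨h0, hlev⟩ := levels'
  refine ⟨max μ1 (max h0 12), 10 ^ 6, fun μ hμ a b ha hab hb => ?_⟩
  have hμ1 : μ1 ≤ μ := le_trans (le_max_left _ _) hμ
  have hμ2 : h0 ≤ μ := le_trans (le_trans (le_max_left _ _) (le_max_right _ _)) hμ
  have hμ3 : 12 ≤ μ := le_trans (le_trans (le_max_right _ _) (le_max_right _ _)) hμ
  obtain ⟨D, hD0, hDle, hA⟩ := hadm μ hμ1
  obtain ⟨Ns, hs, hNs1, hNs2, hGood, hhs⟩ := hlev (12 * μ + 294) (by omega)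
  have f1 := num1 hμ3
  have f2 := num2 hμ3
  have f3 : μ < 2 ^ μ := Nat.lt_two_pow_self
  obtain ⟨τ, hτ⟩ : ∃ τ, τ = 2 ^ μ := ⟨_, rfl⟩
  obtain ⟨jB, hjB⟩ : ∃ jB, jB = τ - 3 - (12 * μ + 294) := ⟨_, rfl⟩
  have hνz : nu μ = zz μ * 2 ^ jB := by
    unfold nu zz
    rw [← pow_add, ← hτ]
    congr 1
    omega
  have hz0 : 132 ≤ zz μ := by
    unfold zz
    calc 132 ≤ 2 ^ 8 := by norm_num
      _ ≤ 2 ^ (12 * μ + 294) := Nat.pow_le_pow_right (by norm_num) (by omega)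
  have hν8 : 8 * nu μ = nn μ := by
    unfold nu nn
    rw [← hτ, show (8 : ℕ) = 2 ^ 3 by norm_num, ← pow_add]
    congr 1
    omega
  have hν286 : 286 ≤ nu μ := by
    unfold nu
    calc 286 ≤ 2 ^ 9 := by norm_num
      _ ≤ 2 ^ (2 ^ μ - 3) := Nat.pow_le_pow_right (by norm_num) (by omega)
  obtain ⟨g, hg⟩ : ∃ g, g = (nu μ - 11) / 12 := ⟨_, rfl⟩
  have hg1 : 12 * g + 11 ≤ nu μ := by omega
  have hg2 : nu μ ≤ 13 * g := by omega
  have hg0 : 0 < g := by omega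
  obtain ⟨X, hX⟩ : ∃ X, X = τ * nn μ := ⟨_, rfl⟩
  obtain ⟨E, hE⟩ : ∃ E, E = 200 * X := ⟨_, rfl⟩
  have hG : E / g ≤ 20800 * τ := by
    apply Nat.div_le_of_le_mul
    rw [hE, hX, ← hν8]
    calc 200 * (τ * (8 * nu μ)) = 1600 * τ * nu μ := by ring
      _ ≤ 1600 * τ * (13 * g) := Nat.mul_le_mul_left _ hg2
      _ = g * (20800 * τ) := by ring
  obtain ⟨H, hH⟩ : ∃ H, H = 2 * (hs + 216 * jB + 18 * (E / g + 1)) := ⟨_, rfl⟩
  obtain ⟨T, hT⟩ : ∃ T, T = 2 ^ H * D * Ns := ⟨_, rfl⟩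
  have hNs0 : 0 < Ns := lt_of_lt_of_le (by positivity) hNs1
  have hT0 : 0 < T := by
    rw [hT]; exact Nat.mul_pos (Nat.mul_pos (Nat.two_pow_pos _) hD0) hNs0
  have hhs' : hs ≤ 50001 * τ := by
    have e : 12 * μ + 294 + 1 = 12 * μ + 295 := by omega
    rw [e] at hhs
    omega
  have hI : 2 * 4 ^ (12 * μ + 294 + 2) ≤ nn μ := by
    unfold nn
    calc 2 * 4 ^ (12 * μ + 294 + 2) = 2 ^ (24 * μ + 593) := by
          have e : 24 * μ + 593 = 2 * (12 * μ + 294 + 2) + 1 := by omega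
          rw [show (4 : ℕ) = 2 ^ 2 by norm_num, ← pow_mul, ← pow_succ', e]
      _ ≤ 2 ^ (2 ^ μ) := Nat.pow_le_pow_right (by norm_num) f1
  have hD' : D ≤ 2 ^ (96 * X) := by
    refine hDle.trans (le_of_eq ?_)
    congr 1
    rw [hX, hτ]; unfold sig; ring
  obtain ⟨hsize, hfin⟩ := core_numeric (μ := μ) (τ := τ) (n := nn μ) (X := X) (hs := hs) (jB := jB)
    (G := E / g) (H := H) (D := D) (Ns := Ns) (I := 4 ^ (12 * μ + 294 + 2)) (T := T) (E := E)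
    hτ (by unfold nn; rw [hτ]) hX (by omega) (by omega) hhs' (by omega) hG hH hD' hNs2 hI hT hT0 hE
  obtain ⟨S, hS1, hS2, hS3⟩ := core_generic (n := nn μ) hD0 hGood hNs1 hz0 hνz hg1 hg0 hA H T hH hT
    hsize a b ha hab hb
  exact ⟨S, hS1, hS2, by rw [← hτ]; exact hS3.trans hfin⟩

end Vale.Agent.Lib.P012.LL
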