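import Vale.Agent.Lib.P012.LL.Defs

/-! # D1: for a fixed pair `(J,J')`, few designs `f` make the two products congruent mod `e` -/

namespace Vale.Agent.Lib.P012.LL
open Finset

private lemma uprod_congr {M n : ℕ} (pr : Fin M → ℕ) {f g : Fin n → Fin M} {S : Finset (Fin n)}
    (h : ∀ j ∈ S, f j = g j) : uprod pr f S = uprod pr g S := by
  unfold uprod
  exact Finset.prod_congr rfl (fun j hj => by rw [h j hj])

private lemma uprod_split {M n : ℕ} (pr : Fin M → ℕ) (f : Fin n → Fin M) {H J : Finset (Fin n)}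
    (h : H ⊆ J) : uprod pr f J = uprod pr f H * uprod pr f (J \ H) := by
  unfold uprod
  rw [mul_comm]
  exact (Finset.prod_sdiff h).symm

private lemma uprod_coprime {M n : ℕ} (pr : Fin M → ℕ) (hprime : ∀ i, (pr i).Prime) (e : ℕ)
    (hcop : ∀ i, ¬ pr i ∣ e) (f : Fin n → Fin M) (S : Finset (Fin n)) :
    Nat.Coprime (uprod pr f S) e := by
  unfold uprod
  exact Nat.Coprime.prod_left (fun j _ => (Nat.Prime.coprime_iff_not_dvd (hprime _)).2 (hcop _))

private lemma uprod_le {M n : ℕ} (pr : Fin M → ℕ) (σ : ℕ) (hle : ∀ i, pr i ≤ 2 ^ σ)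
    (f : Fin n → Fin M) (S : Finset (Fin n)) : uprod pr f S ≤ (2 ^ σ) ^ S.card := by
  unfold uprod
  exact Finset.prod_le_pow_card _ _ _ (fun j _ => hle _)

private lemma uprod_pos {M n : ℕ} (pr : Fin M → ℕ) (hprime : ∀ i, (pr i).Prime)
    (f : Fin n → Fin M) (S : Finset (Fin n)) : 0 < uprod pr f S := by
  unfold uprod
  exact Finset.prod_pos (fun j _ => (hprime _).pos)

theorem count_cong {M n : ℕ} (pr : Fin M → ℕ) (hinj : Function.Injective pr)
    (hprime : ∀ i, (pr i).Prime) (σ : ℕ) (hle : ∀ i, pr i ≤ 2 ^ σ)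
    (e : ℕ) (he : 0 < e) (hcop : ∀ i, ¬ pr i ∣ e)
    (J J' H : Finset (Fin n)) (hH : H ⊆ J \ J') :
    ((Finset.univ : Finset (Fin n → Fin M)).filter
        (fun f => uprod pr f J ≡ uprod pr f J' [MOD e])).card
      ≤ M ^ (n - H.card) * ((2 ^ σ) ^ H.card / e + 1) * (σ * H.card) ^ H.card := by
  classical
  set V := (Finset.univ : Finset (Fin n → Fin M)).filter
        (fun f => uprod pr f J ≡ uprod pr f J' [MOD e]) with hV
  have hHJ : H ⊆ J := fun j hj => (Finset.mem_sdiff.mp (hH hj)).1
  have hHJ' : ∀ j ∈ J', j ∉ H := fun j hj hjH => (Finset.mem_sdiff.mp (hH hjH)).2 hj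
  let φ : (Fin n → Fin M) → ((↥(Hᶜ : Finset (Fin n)) → Fin M) × ℕ) :=
    fun f => (fun j => f j.1, uprod pr f H / e)
  have hfib : ∀ a ∈ V.image φ, (V.filter (fun f => φ f = a)).card ≤ (σ * H.card) ^ H.card := by
    intro a ha
    obtain ⟨f0, hf0V, rfl⟩ := Finset.mem_image.mp ha
    set m0 := uprod pr f0 H with hm0
    have hm0pos : 0 < m0 := uprod_pos pr hprime f0 H
    have hm0le : m0 ≤ 2 ^ (σ * H.card) := by
      rw [pow_mul]; exact uprod_le pr σ hle f0 H
    let T : Finset (Fin M) := Finset.univ.filter (fun i => pr i ∣ m0)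
    have hT : T.card ≤ σ * H.card := by
      refine le_trans ?_ (card_primeFactors_le_of_le_two_pow hm0pos hm0le)
      apply Finset.card_le_card_of_injOn pr
      · intro i hi
        have hi' : pr i ∣ m0 := (Finset.mem_filter.mp hi).2
        exact Nat.mem_primeFactors.mpr ⟨hprime i, hi', hm0pos.ne'⟩
      · exact hinj.injOn
    have hsub : V.filter (fun f => φ f = φ f0) ⊆
        Fintype.piFinset (fun j => if j ∈ H then T else {f0 j}) := by
      intro f hf
      obtain ⟨hfV, hfφ⟩ := Finset.mem_filter.mp hf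
      have hfV' : uprod pr f J ≡ uprod pr f J' [MOD e] := (Finset.mem_filter.mp hfV).2
      have hf0V' : uprod pr f0 J ≡ uprod pr f0 J' [MOD e] := (Finset.mem_filter.mp hf0V).2
      have hoff : ∀ j, j ∉ H → f j = f0 j := by
        intro j hj
        have := congrFun (congrArg Prod.fst hfφ) ⟨j, Finset.mem_compl.mpr hj⟩
        exact this
      have hquot : uprod pr f H / e = m0 / e := congrArg Prod.snd hfφ
      have h1 : uprod pr f J' = uprod pr f0 J' := uprod_congr pr (fun j hj => hoff j (hHJ' j hj))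
      have h2 : uprod pr f (J \ H) = uprod pr f0 (J \ H) :=
        uprod_congr pr (fun j hj => hoff j (Finset.mem_sdiff.mp hj).2)
      have h3 : uprod pr f H * uprod pr f0 (J \ H) ≡ m0 * uprod pr f0 (J \ H) [MOD e] := by
        rw [← h2, ← uprod_split pr f hHJ, h2, hm0, ← uprod_split pr f0 hHJ]
        exact (hfV'.trans (by rw [h1])).trans hf0V'.symm
      have h4 : uprod pr f H ≡ m0 [MOD e] :=
        Nat.ModEq.cancel_right_of_coprime
          (Nat.Coprime.symm (uprod_coprime pr hprime e hcop f0 (J \ H))) h3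
      have h5 : uprod pr f H = m0 := by
        rw [← Nat.div_add_mod (uprod pr f H) e, ← Nat.div_add_mod m0 e, hquot]
        congr 1
      rw [Fintype.mem_piFinset]
      intro j
      by_cases hj : j ∈ H
      · rw [if_pos hj]
        refine Finset.mem_filter.mpr ⟨Finset.mem_univ _, ?_⟩
        rw [← h5]
        exact Finset.dvd_prod_of_mem (fun j => pr (f j)) hj
      · rw [if_neg hj, Finset.mem_singleton]
        exact hoff j hj
    refine (Finset.card_le_card hsub).trans ?_
    rw [Fintype.card_piFinset]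
    have h6 : ∏ j, (if j ∈ H then T else {f0 j}).card = T.card ^ H.card := by
      have : ∀ j, (if j ∈ H then T else {f0 j}).card = if j ∈ H then T.card else 1 := by
        intro j; split_ifs <;> simp
      simp only [this]
      rw [Finset.prod_ite_mem, Finset.univ_inter, Finset.prod_const]
    rw [h6]
    exact Nat.pow_le_pow_left hT _
  have h7 := Finset.card_le_mul_card_image V _ hfib
  have himg : (V.image φ).card ≤ M ^ (n - H.card) * ((2 ^ σ) ^ H.card / e + 1) := by
    have hsub : V.image φ ⊆ (Finset.univ : Finset (↥(Hᶜ : Finset (Fin n)) → Fin M)) ×ˢ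
        Finset.range ((2 ^ σ) ^ H.card / e + 1) := by
      intro a ha
      obtain ⟨f, _, rfl⟩ := Finset.mem_image.mp ha
      refine Finset.mem_product.mpr ⟨Finset.mem_univ _, ?_⟩
      rw [Finset.mem_range, Nat.lt_succ_iff]
      exact Nat.div_le_div_right (uprod_le pr σ hle f H)
    refine (Finset.card_le_card hsub).trans ?_
    rw [Finset.card_product, Finset.card_range, Finset.card_univ, Fintype.card_fun,
      Fintype.card_fin, Fintype.card_coe, Finset.card_compl, Fintype.card_fin]
  calc V.card ≤ (σ * H.card) ^ H.card * (V.image φ).card := h7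
    _ ≤ (σ * H.card) ^ H.card * (M ^ (n - H.card) * ((2 ^ σ) ^ H.card / e + 1)) :=
        Nat.mul_le_mul_left _ himg
    _ = M ^ (n - H.card) * ((2 ^ σ) ^ H.card / e + 1) * (σ * H.card) ^ H.card := by ring

end Vale.Agent.Lib.P012.LL
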