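import Vale.Agent.Lib.P012.Main

/-!
# P012, `N(b) ≪ log log b`: basic definitions

* `lev e`      : `4096 ^ lev e ≤ e < 4096 ^ (lev e + 1)`.
* `GoodMod A e`: `A` has few collisions modulo `e`, `EE A e ≤ |A|^2 / 256^(lev e + 1) ≤ |A|^2 e^(-2/3)`.
* `URep x k`   : the rational `x` is a sum of at most `k` unit fractions (repetitions allowed).
* parameters `tau μ = 2^μ`, `nn μ = 2^(2^μ)`, ...
-/

namespace Vale.Agent.Lib.P012.LL

open Finset

/-- level of a modulus. -/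
def lev (e : ℕ) : ℕ := Nat.log 4096 e

/-- `A` has few collisions modulo `e`. -/
def GoodMod (A : Finset ℕ) (e : ℕ) : Prop := EE A e * 256 ^ (lev e + 1) ≤ A.card ^ 2

/-- `x` is a sum of at most `k` unit fractions, repetitions allowed. -/
def URep (x : ℚ) (k : ℕ) : Prop :=
  ∃ l : Multiset ℕ, Multiset.card l ≤ k ∧ (∀ n ∈ l, 0 < n) ∧
    (l.map (fun n : ℕ => (1 : ℚ) / n)).sum = x

/-- `τ = 2^μ`. -/
def tau (μ : ℕ) : ℕ := 2 ^ μ
/-- number of primes in the block, `n = 2^τ`. -/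
def nn (μ : ℕ) : ℕ := 2 ^ (2 ^ μ)
/-- the primes of the pool are `≤ 2^σ`, `σ = 48 τ`. -/
def sig (μ : ℕ) : ℕ := 48 * 2 ^ μ
/-- moduli go up to `2^(ν+1)`, `ν = n/8`. -/
def nu (μ : ℕ) : ℕ := 2 ^ (2 ^ μ - 3)
/-- moduli have no prime factor `≤ R`, `R = 4096^(μ+24)`. -/
def RR (μ : ℕ) : ℕ := 2 ^ (12 * μ + 288)
/-- numerators below `2^z₀` are handled by the old construction. -/
def zz (μ : ℕ) : ℕ := 2 ^ (12 * μ + 294)

/-- products of the chosen primes over a subset of indices. -/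
def uprod {M n : ℕ} (pr : Fin M → ℕ) (f : Fin n → Fin M) (J : Finset (Fin n)) : ℕ :=
  ∏ j ∈ J, pr (f j)

/-- the set of all subset products. -/
def Aset {M n : ℕ} (pr : Fin M → ℕ) (f : Fin n → Fin M) : Finset ℕ :=
  (Finset.univ : Finset (Finset (Fin n))).image (uprod pr f)

/-- number of pairs `(J,J')` with a one-sided difference of size `≥ h` colliding modulo `e`. -/
def TrJ {M n : ℕ} (pr : Fin M → ℕ) (f : Fin n → Fin M) (e h : ℕ) : ℕ :=
  ((Finset.univ : Finset (Finset (Fin n) × Finset (Fin n))).filter (fun P =>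
    (h ≤ (P.1 \ P.2).card ∨ h ≤ (P.2 \ P.1).card) ∧
      uprod pr f P.1 ≡ uprod pr f P.2 [MOD e])).card

/-- the bound for the averaged collision probability modulo `e` (`h = clog_{2^σ} e`). -/
noncomputable def epsB (M σ e : ℕ) : ℚ :=
  ((((2 ^ σ) ^ (Nat.clog (2 ^ σ) e) / e + 1 : ℕ) : ℚ) *
    ((σ * Nat.clog (2 ^ σ) e : ℕ) : ℚ) ^ (Nat.clog (2 ^ σ) e)) / (M : ℚ) ^ (Nat.clog (2 ^ σ) e)

/-- the property of the block `D` used by the descent: every `m ∈ [2^z0, 2^(ν+1))` has just below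
it a modulus `w` dividing a sum of 18 divisors of `D`. -/
def AdmProp (D z0 ν : ℕ) : Prop :=
  ∀ m, 2 ^ z0 ≤ m → m < 2 ^ (ν + 1) → ∃ (w t : ℕ) (d : Fin 18 → ℕ),
    0 < w ∧ w ≤ m ∧ (m - w) ^ 12 ≤ m ^ 11 ∧ (∀ i, d i ∣ D) ∧ w * t = ∑ i, d i

end Vale.Agent.Lib.P012.LL
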