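import Vale.Agent.Lib.P012.LL.Defs

/-! # D7: the numerical estimate for the averaged potential -/

namespace Vale.Agent.Lib.P012.LL
open Finset

private lemma dn_geo4 (a b : ℕ) : ∑ k ∈ Finset.Ico a b, (1 / 4 : ℚ) ^ k ≤ (4 / 3) * (1 / 4) ^ a := by
  rcases le_total a b with h | h
  · rw [geom_sum_Ico (by norm_num) h]
    have hb : (0 : ℚ) ≤ (1 / 4) ^ b := by positivity
    have e : ((1 / 4 : ℚ) ^ b - (1 / 4) ^ a) / (1 / 4 - 1) = (4 / 3) * ((1 / 4) ^ a - (1 / 4) ^ b) := by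
      field_simp
      ring
    rw [e]
    linarith
  · rw [Finset.Ico_eq_empty_of_le h]
    simp only [Finset.sum_empty]
    positivity

private lemma dn_geo2 (a b : ℕ) : ∑ k ∈ Finset.Ico a b, (1 / 2 : ℚ) ^ k ≤ 2 * (1 / 2) ^ a := by
  rcases le_total a b with h | h
  · rw [geom_sum_Ico (by norm_num) h]
    have hb : (0 : ℚ) ≤ (1 / 2) ^ b := by positivity
    have e : ((1 / 2 : ℚ) ^ b - (1 / 2) ^ a) / (1 / 2 - 1) = 2 * ((1 / 2) ^ a - (1 / 2) ^ b) := by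
      field_simp
      ring
    rw [e]
    linarith
  · rw [Finset.Ico_eq_empty_of_le h]
    simp only [Finset.sum_empty]
    positivity

/-- summation by levels -/
private lemma dn_level_sum (S : Finset ℕ) (a b : ℕ) (hS : ∀ e ∈ S, a ≤ lev e ∧ lev e < b)
    (f : ℕ → ℚ) (hf : ∀ k, 0 ≤ f k) :
    ∑ e ∈ S, f (lev e) ≤ ∑ k ∈ Finset.Ico a b, (4096 : ℚ) ^ (k + 1) * f k := by
  rw [← Finset.sum_fiberwise_of_maps_to (g := lev) (t := Finset.Ico a b)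
    (fun e he => Finset.mem_Ico.mpr (hS e he))]
  refine Finset.sum_le_sum fun k _ => ?_
  have h1 : ∑ e ∈ S.filter (fun e => lev e = k), f (lev e)
      = ((S.filter (fun e => lev e = k)).card : ℚ) * f k := by
    rw [Finset.sum_congr rfl (fun e he => by rw [(Finset.mem_filter.mp he).2]),
      Finset.sum_const, nsmul_eq_mul]
  rw [h1]
  refine mul_le_mul_of_nonneg_right ?_ (hf k)
  have h2 : (S.filter (fun e => lev e = k)).card ≤ 4096 ^ (k + 1) := by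
    have hsub : S.filter (fun e => lev e = k) ⊆ Finset.range (4096 ^ (k + 1)) := by
      intro e he
      have hk := (Finset.mem_filter.mp he).2
      rw [Finset.mem_range, ← hk]
      exact Nat.lt_pow_succ_log_self (by norm_num) e
    simpa using Finset.card_le_card hsub
  exact_mod_cast h2

private lemma dn_div_succ_mul (X e : ℕ) (he : e ≤ X) : (X / e + 1) * e ≤ 2 * X := by
  have := Nat.div_mul_le_self X e
  nlinarith

/-- moduli `e ≤ x` -/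
private lemma dn_epsB_small (M σ e : ℕ) (hM : 2 ^ σ ≤ 8 * σ * M) (he1 : 2 ≤ e)
    (hex : e ≤ 2 ^ σ) : epsB M σ e ≤ 16 * (σ : ℚ) ^ 2 / (4096 : ℚ) ^ (lev e) := by
  have hc : Nat.clog (2 ^ σ) e = 1 := Nat.clog_eq_one he1 hex
  have hMpos : 0 < M := by
    rcases Nat.eq_zero_or_pos M with h | h
    · subst h
      have : 0 < 2 ^ σ := by positivity
      omega
    · exact h
  have hk : 4096 ^ (lev e) ≤ e := Nat.pow_log_le_self 4096 (by omega)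
  have key : (2 ^ σ / e + 1) * σ * 4096 ^ (lev e) ≤ 16 * σ ^ 2 * M := by
    calc (2 ^ σ / e + 1) * σ * 4096 ^ (lev e) ≤ (2 ^ σ / e + 1) * σ * e :=
          Nat.mul_le_mul_left _ hk
      _ = σ * ((2 ^ σ / e + 1) * e) := by ring
      _ ≤ σ * (2 * 2 ^ σ) := Nat.mul_le_mul_left _ (dn_div_succ_mul _ _ hex)
      _ ≤ σ * (2 * (8 * σ * M)) := Nat.mul_le_mul_left _ (Nat.mul_le_mul_left _ hM)
      _ = 16 * σ ^ 2 * M := by ring
  unfold epsB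
  rw [hc]
  simp only [pow_one, mul_one]
  rw [div_le_div_iff₀ (by exact_mod_cast hMpos) (by positivity)]
  exact_mod_cast key

/-- moduli `e > x` -/
private lemma dn_epsB_large (M σ τ ν e : ℕ) (hστ : σ = 48 * τ) (hτ : 0 < τ)
    (hM : 2 ^ σ ≤ 8 * σ * M) (hy : 8 * σ ^ 2 * (ν + 1) ≤ 2 ^ (2 * τ)) (hex : 2 ^ σ < e)
    (heν : e < 2 ^ (ν + 1)) :
    epsB M σ e ≤ 2 * (2 : ℚ) ^ (lev e) / (4096 : ℚ) ^ (lev e) ∧ 4 * τ ≤ lev e := by
  have hσ : 0 < σ := by omega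
  have hb : 1 < 2 ^ σ := Nat.one_lt_two_pow (by omega)
  have he1 : 1 < e := by omega
  have hMpos : 0 < M := by
    rcases Nat.eq_zero_or_pos M with h | h
    · subst h
      omega
    · exact h
  obtain ⟨h, hh⟩ : ∃ h, h = Nat.clog (2 ^ σ) e := ⟨_, rfl⟩
  have h1 : (2 ^ σ) ^ (h - 1) < e := by
    rw [hh]; exact Nat.pow_pred_clog_lt_self hb he1
  have h2 : e ≤ (2 ^ σ) ^ h := by
    rw [hh]; exact Nat.le_pow_clog hb e
  have hh2 : 2 ≤ h := by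
    by_contra hcon
    have hle : h ≤ 1 := by omega
    have : (2 ^ σ) ^ h ≤ (2 ^ σ) ^ 1 := Nat.pow_le_pow_right (by omega) hle
    rw [pow_one] at this
    omega
  have hk1 : 4096 ^ (lev e) ≤ e := Nat.pow_log_le_self 4096 (by omega)
  have hk2 : e < 4096 ^ (lev e + 1) := Nat.lt_pow_succ_log_self (by norm_num) e
  -- exponents
  have e1 : σ * (h - 1) < ν + 1 := by
    have : 2 ^ (σ * (h - 1)) < 2 ^ (ν + 1) := by
      rw [pow_mul]; exact h1.trans heν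
    exact (Nat.pow_lt_pow_iff_right (by norm_num)).mp this
  have hhν : h ≤ ν + 1 := by
    have : 1 * (h - 1) ≤ σ * (h - 1) := Nat.mul_le_mul_right _ hσ
    omega
  have e2 : 4 * τ * (h - 1) ≤ lev e := by
    have : 2 ^ (σ * (h - 1)) < 2 ^ (12 * (lev e + 1)) := by
      have e3 : (4096 : ℕ) ^ (lev e + 1) = 2 ^ (12 * (lev e + 1)) := by
        rw [pow_mul]; norm_num
      rw [← e3, pow_mul]; exact h1.trans hk2
    have h3 := (Nat.pow_lt_pow_iff_right (by norm_num)).mp this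
    rw [hστ] at h3
    have h4 : 48 * τ * (h - 1) = 12 * (4 * τ * (h - 1)) := by ring
    omega
  have e4 : 2 * τ * h ≤ lev e := by
    refine le_trans ?_ e2
    obtain ⟨j, rfl⟩ : ∃ j, h = j + 2 := ⟨h - 2, by omega⟩
    have : j + 2 - 1 = j + 1 := by omega
    rw [this]
    nlinarith
  have hbase : σ * h * 2 ^ σ ≤ 2 ^ (2 * τ) * M := by
    calc σ * h * 2 ^ σ ≤ σ * h * (8 * σ * M) := Nat.mul_le_mul_left _ hM
      _ = (8 * σ ^ 2 * h) * M := by ring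
      _ ≤ (8 * σ ^ 2 * (ν + 1)) * M :=
          Nat.mul_le_mul_right _ (Nat.mul_le_mul_left _ hhν)
      _ ≤ 2 ^ (2 * τ) * M := Nat.mul_le_mul_right _ hy
  have hpow : (σ * h) ^ h * (2 ^ σ) ^ h ≤ 2 ^ (lev e) * M ^ h := by
    calc (σ * h) ^ h * (2 ^ σ) ^ h = (σ * h * 2 ^ σ) ^ h := (mul_pow (σ * h) (2 ^ σ) h).symm
      _ ≤ (2 ^ (2 * τ) * M) ^ h := Nat.pow_le_pow_left hbase h
      _ = 2 ^ (2 * τ * h) * M ^ h := by rw [mul_pow, ← pow_mul]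
      _ ≤ 2 ^ (lev e) * M ^ h :=
          Nat.mul_le_mul_right _ (Nat.pow_le_pow_right (by norm_num) e4)
  have key : ((2 ^ σ) ^ h / e + 1) * (σ * h) ^ h * 4096 ^ (lev e) ≤ 2 * 2 ^ (lev e) * M ^ h := by
    calc ((2 ^ σ) ^ h / e + 1) * (σ * h) ^ h * 4096 ^ (lev e)
        ≤ ((2 ^ σ) ^ h / e + 1) * (σ * h) ^ h * e := Nat.mul_le_mul_left _ hk1
      _ = (σ * h) ^ h * (((2 ^ σ) ^ h / e + 1) * e) := by ring
      _ ≤ (σ * h) ^ h * (2 * (2 ^ σ) ^ h) := Nat.mul_le_mul_left _ (dn_div_succ_mul _ _ h2)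
      _ = 2 * ((σ * h) ^ h * (2 ^ σ) ^ h) := by ring
      _ ≤ 2 * (2 ^ (lev e) * M ^ h) := Nat.mul_le_mul_left _ hpow
      _ = 2 * 2 ^ (lev e) * M ^ h := by ring
  constructor
  · unfold epsB
    rw [← hh]
    rw [div_le_div_iff₀ (by positivity) (by positivity)]
    exact_mod_cast key
  · apply Nat.le_log_of_pow_le (by norm_num)
    have : (4096 : ℕ) ^ (4 * τ) = 2 ^ σ := by
      rw [hστ, show 48 * τ = 12 * (4 * τ) by ring, pow_mul 2 12 (4 * τ)]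
      rfl
    rw [this]
    exact hex.le

private lemma dn_poly_exp (t : ℕ) (ht : 32 ≤ t) : 4608 * t ^ 2 ≤ 2 ^ t := by
  induction t, ht using Nat.le_induction with
  | base => norm_num
  | succ t ht ih =>
    have e1 : 2 ^ (t + 1) = 2 * 2 ^ t := by ring
    rw [e1]
    nlinarith

/-- majorant for moduli `e ≤ x` -/
private def dnA (σ k : ℕ) : ℚ := (256 / 4 ^ k : ℚ) * (2 * (16 * (σ : ℚ) ^ 2 / (4096 : ℚ) ^ k))

/-- majorant for moduli `e > x` -/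
private def dnB (k : ℕ) : ℚ := (256 / 4 ^ k : ℚ) * (2 * (2 * (2 : ℚ) ^ k / (4096 : ℚ) ^ k))

private lemma dnA_nonneg (σ k : ℕ) : 0 ≤ dnA σ k := by
  unfold dnA
  positivity

private lemma dnB_nonneg (k : ℕ) : 0 ≤ dnB k := by
  unfold dnB
  positivity

private lemma dnA_mul (σ k : ℕ) :
    (4096 : ℚ) ^ (k + 1) * dnA σ k = (33554432 * (σ : ℚ) ^ 2) * (1 / 4) ^ k := by
  unfold dnA
  simp only [one_div, inv_pow]
  field_simp
  ring

private lemma dnB_mul (k : ℕ) : (4096 : ℚ) ^ (k + 1) * dnB k = 4194304 * (1 / 2) ^ k := by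
  unfold dnB
  have e4 : (4 : ℚ) ^ k = 2 ^ k * 2 ^ k := by rw [← mul_pow]; norm_num
  rw [e4]
  simp only [one_div, inv_pow]
  field_simp
  ring

private lemma dn_term (M σ τ ν n e : ℕ) (hστ : σ = 48 * τ) (hτ : 0 < τ)
    (hM : 2 ^ σ ≤ 8 * σ * M) (hy : 8 * σ ^ 2 * (ν + 1) ≤ 2 ^ (2 * τ)) (h2e : 2 ≤ e)
    (heν : e < 2 ^ (ν + 1)) :
    (256 / 4 ^ (lev e) : ℚ) * (1 / 2 ^ n + 2 * epsB M σ e)
      ≤ 256 / 2 ^ n + ((if e ≤ 2 ^ σ then dnA σ (lev e) else 0)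
        + (if ¬ e ≤ 2 ^ σ then dnB (lev e) else 0)) := by
  have hc : (0 : ℚ) < 256 / 4 ^ (lev e) := by positivity
  have hc1 : (256 / 4 ^ (lev e) : ℚ) ≤ 256 := by
    apply div_le_self (by norm_num)
    exact one_le_pow₀ (by norm_num)
  have hfirst : (256 / 4 ^ (lev e) : ℚ) * (1 / 2 ^ n) ≤ 256 / 2 ^ n := by
    rw [mul_one_div]
    exact div_le_div_of_nonneg_right hc1 (by positivity)
  rw [mul_add]
  by_cases hex : e ≤ 2 ^ σ
  · rw [if_pos hex, if_neg (not_not.mpr hex), add_zero]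
    have := dn_epsB_small M σ e hM h2e hex
    have h3 : (256 / 4 ^ (lev e) : ℚ) * (2 * epsB M σ e) ≤ dnA σ (lev e) := by
      unfold dnA
      exact mul_le_mul_of_nonneg_left (by linarith) hc.le
    linarith
  · rw [if_neg hex, if_pos hex, zero_add]
    have := (dn_epsB_large M σ τ ν e hστ hτ hM hy (not_le.mp hex) heν).1
    have h3 : (256 / 4 ^ (lev e) : ℚ) * (2 * epsB M σ e) ≤ dnB (lev e) := by
      unfold dnB
      exact mul_le_mul_of_nonneg_left (by linarith) hc.le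
    linarith

private lemma dn_partA (S : Finset ℕ) (ν n : ℕ) (hS : S.card ≤ 2 ^ (ν + 1)) (hn : ν + 17 ≤ n) :
    (S.card : ℚ) * (256 / 2 ^ n) ≤ 1 / 256 := by
  have hcard : (S.card : ℚ) ≤ 2 ^ (ν + 1) := by exact_mod_cast hS
  have h1 : (2 : ℚ) ^ (ν + 1) * 65536 ≤ 2 ^ n := by
    have : (2 : ℕ) ^ (ν + 1) * 65536 ≤ 2 ^ n := by
      calc (2 : ℕ) ^ (ν + 1) * 65536 = 2 ^ (ν + 1 + 16) := by rw [pow_add _ (ν + 1) 16]; norm_num
        _ ≤ 2 ^ n := Nat.pow_le_pow_right (by norm_num) (by omega)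
    exact_mod_cast this
  have hpos : (0 : ℚ) < 2 ^ n := by positivity
  calc (S.card : ℚ) * (256 / 2 ^ n) ≤ 2 ^ (ν + 1) * (256 / 2 ^ n) :=
        mul_le_mul_of_nonneg_right hcard (by positivity)
    _ ≤ 1 / 256 := by
        rw [mul_div_assoc', div_le_div_iff₀ hpos (by norm_num)]
        linarith

private lemma dn_partB (T : Finset ℕ) (μ σ b : ℕ) (hσ : σ = 48 * 2 ^ μ)
    (hT : ∀ e ∈ T, μ + 24 ≤ lev e ∧ lev e < b) :
    ∑ e ∈ T, dnA σ (lev e) ≤ 3 / 8192 := by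
  have h1 := dn_level_sum T (μ + 24) b hT (dnA σ) (dnA_nonneg σ)
  refine h1.trans ?_
  rw [Finset.sum_congr rfl (fun k _ => dnA_mul σ k), ← Finset.mul_sum]
  have h3 := dn_geo4 (μ + 24) b
  have hσq : (σ : ℚ) = 48 * 2 ^ μ := by
    rw [hσ]; push_cast; ring
  have h4 : (σ : ℚ) ^ 2 * (1 / 4) ^ (μ + 24) = 2304 * (1 / 4) ^ 24 := by
    rw [hσq, pow_add]
    have : ((2 : ℚ) ^ μ) ^ 2 * (1 / 4) ^ μ = 1 := by
      rw [← pow_mul, mul_comm μ 2, pow_mul, ← mul_pow]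
      norm_num
    calc (48 * (2 : ℚ) ^ μ) ^ 2 * ((1 / 4) ^ μ * (1 / 4) ^ 24)
        = 2304 * (((2 : ℚ) ^ μ) ^ 2 * (1 / 4) ^ μ) * (1 / 4) ^ 24 := by ring
      _ = 2304 * (1 / 4) ^ 24 := by rw [this, mul_one]
  calc (33554432 * (σ : ℚ) ^ 2) * ∑ k ∈ Finset.Ico (μ + 24) b, (1 / 4 : ℚ) ^ k
      ≤ (33554432 * (σ : ℚ) ^ 2) * ((4 / 3) * (1 / 4) ^ (μ + 24)) :=
        mul_le_mul_of_nonneg_left h3 (by positivity)
    _ = 33554432 * (4 / 3) * ((σ : ℚ) ^ 2 * (1 / 4) ^ (μ + 24)) := by ring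
    _ = 3 / 8192 := by rw [h4]; norm_num

private lemma dn_partC (T : Finset ℕ) (τ b : ℕ) (hτ : 8 ≤ τ)
    (hT : ∀ e ∈ T, 4 * τ ≤ lev e ∧ lev e < b) :
    ∑ e ∈ T, dnB (lev e) ≤ 1 / 256 := by
  have h1 := dn_level_sum T (4 * τ) b hT dnB dnB_nonneg
  refine h1.trans ?_
  rw [Finset.sum_congr rfl (fun k _ => dnB_mul k), ← Finset.mul_sum]
  have h3 := dn_geo2 (4 * τ) b
  have h4 : (1 / 2 : ℚ) ^ (4 * τ) ≤ (1 / 2) ^ 31 :=
    pow_le_pow_of_le_one (by norm_num) (by norm_num) (by omega)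
  calc (4194304 : ℚ) * ∑ k ∈ Finset.Ico (4 * τ) b, (1 / 2 : ℚ) ^ k
      ≤ 4194304 * (2 * (1 / 2) ^ (4 * τ)) := mul_le_mul_of_nonneg_left h3 (by norm_num)
    _ ≤ 4194304 * (2 * (1 / 2) ^ 31) := by
        apply mul_le_mul_of_nonneg_left _ (by norm_num)
        linarith
    _ = 1 / 256 := by norm_num

/-- the estimate with abstract parameters -/
private lemma dn_core (μ τ σ ν n R M : ℕ) (hτdef : τ = 2 ^ μ) (hτ32 : 32 ≤ τ)
    (hsig : σ = 48 * τ) (h8ν : 2 ^ τ = 8 * ν) (hnn : n = 2 ^ τ) (hν3 : 3 ≤ ν)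
    (hRR : R = 4096 ^ (μ + 24)) (hM : 2 ^ σ ≤ 8 * σ * M) :
    ∑ e ∈ Finset.Ioo R (2 ^ (ν + 1)),
      (256 / 4 ^ (lev e) : ℚ) * (1 / 2 ^ n + 2 * epsB M σ e) ≤ 1 / 64 := by
  have hy : 8 * σ ^ 2 * (ν + 1) ≤ 2 ^ (2 * τ) := by
    have h1 := dn_poly_exp τ hτ32
    rw [hsig, two_mul, pow_add]
    calc 8 * (48 * τ) ^ 2 * (ν + 1) ≤ 8 * (48 * τ) ^ 2 * (2 * ν) :=
          Nat.mul_le_mul_left _ (by omega)
      _ = (4608 * τ ^ 2) * (8 * ν) := by ring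
      _ ≤ 2 ^ τ * (8 * ν) := Nat.mul_le_mul_right _ h1
      _ = 2 ^ τ * 2 ^ τ := by rw [h8ν]
  obtain ⟨S, hS⟩ : ∃ S, S = Finset.Ioo R (2 ^ (ν + 1)) := ⟨_, rfl⟩
  rw [← hS]
  have hSmem : ∀ e ∈ S, 4096 ^ (μ + 24) < e ∧ e < 2 ^ (ν + 1) := by
    intro e he
    rw [hS, Finset.mem_Ioo, hRR] at he
    exact he
  have hterm : ∀ e ∈ S, (256 / 4 ^ (lev e) : ℚ) * (1 / 2 ^ n + 2 * epsB M σ e)
      ≤ 256 / 2 ^ n + ((if e ≤ 2 ^ σ then dnA σ (lev e) else 0)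
        + (if ¬ e ≤ 2 ^ σ then dnB (lev e) else 0)) := by
    intro e he
    obtain ⟨he1, he2⟩ := hSmem e he
    have h2e : 2 ≤ e := by
      have : 1 ≤ 4096 ^ (μ + 24) := Nat.one_le_pow _ _ (by norm_num)
      omega
    exact dn_term M σ τ ν n e hsig (by omega) hM hy h2e he2
  refine (Finset.sum_le_sum hterm).trans ?_
  rw [Finset.sum_add_distrib, Finset.sum_add_distrib, Finset.sum_const, nsmul_eq_mul,
    ← Finset.sum_filter, ← Finset.sum_filter]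
  have hcard : S.card ≤ 2 ^ (ν + 1) := by
    rw [hS, Nat.card_Ioo]
    exact (Nat.sub_le _ _).trans (Nat.sub_le _ _)
  have hA := dn_partA S ν n hcard (by omega)
  have hlevlt : ∀ e ∈ S, lev e < 2 ^ (ν + 1) := by
    intro e he
    obtain ⟨he1, he2⟩ := hSmem e he
    exact (Nat.log_lt_self 4096 (by omega)).trans he2
  have hB := dn_partB (S.filter (fun e => e ≤ 2 ^ σ)) μ σ (2 ^ (ν + 1)) (by rw [hsig, hτdef])
    (fun e he => by
      have heS := (Finset.mem_filter.mp he).1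
      exact ⟨Nat.le_log_of_pow_le (by norm_num) (hSmem e heS).1.le, hlevlt e heS⟩)
  have hC := dn_partC (S.filter (fun e => ¬ e ≤ 2 ^ σ)) τ (2 ^ (ν + 1)) (by omega)
    (fun e he => by
      obtain ⟨heS, hex⟩ := Finset.mem_filter.mp he
      exact ⟨(dn_epsB_large M σ τ ν e hsig (by omega) hM hy (not_le.mp hex)
        (hSmem e heS).2).2, hlevlt e heS⟩)
  linarith

theorem design_numeric : ∃ μ₀ : ℕ, ∀ μ ≥ μ₀, ∀ M : ℕ, 2 ^ (sig μ) ≤ 8 * sig μ * M →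
    ∑ e ∈ Finset.Ioo (RR μ) (2 ^ (nu μ + 1)),
      (256 / 4 ^ (lev e) : ℚ) * (1 / 2 ^ (nn μ) + 2 * epsB M (sig μ) e) ≤ 1 / 64 := by
  refine ⟨5, fun μ hμ M hM => ?_⟩
  have hτ32 : 32 ≤ 2 ^ μ := by
    calc 32 = 2 ^ 5 := by norm_num
      _ ≤ 2 ^ μ := Nat.pow_le_pow_right (by norm_num) hμ
  have hRR : RR μ = 4096 ^ (μ + 24) := by
    unfold RR
    rw [show 12 * μ + 288 = 12 * (μ + 24) by ring, pow_mul 2 12 (μ + 24)]
    norm_num
  have h8ν : 2 ^ (2 ^ μ) = 8 * nu μ := by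
    unfold nu
    obtain ⟨t, ht⟩ : ∃ t, 2 ^ μ = t + 3 := ⟨2 ^ μ - 3, by omega⟩
    rw [ht, pow_add]
    simp only [Nat.add_sub_cancel]
    ring
  have hν3 : 3 ≤ nu μ := by
    unfold nu
    calc 3 ≤ 2 ^ 2 := by norm_num
      _ ≤ 2 ^ (2 ^ μ - 3) := Nat.pow_le_pow_right (by norm_num) (by omega)
  exact dn_core μ (2 ^ μ) (sig μ) (nu μ) (nn μ) (RR μ) M rfl hτ32 (by unfold sig; ring) h8ν
    (by unfold nn; ring) hν3 hRR hM

end Vale.Agent.Lib.P012.LL
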