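import Vale.Agent.Lib.P012.LL.Defs

/-! # D8: the pool of primes (Chebyshev bounds from Mathlib) -/

namespace Vale.Agent.Lib.P012.LL
open Finset

private lemma sq_le_two_pow (s : ℕ) (hs : 16 ≤ s) : 72 * s ^ 2 ≤ 2 ^ s := by
  induction s, hs using Nat.le_induction with
  | base => norm_num
  | succ k hk ih =>
    rw [pow_succ 2 k]
    nlinarith

private lemma pi_lower (s : ℕ) (hs : 1 ≤ s) :
    (2 : ℝ) ^ s / s - 2 ≤ (Nat.primeCounting (2 ^ s) : ℝ) := by
  have h := Chebyshev.pi_ge (2 ^ s)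
  have hl2 : 0 < Real.log 2 := Real.log_pos (by norm_num)
  have hs0 : (0 : ℝ) < s := by exact_mod_cast hs
  have hcast : ((2 ^ s : ℕ) : ℝ) = (2 : ℝ) ^ s := by push_cast; rfl
  rw [hcast] at h
  have hlog : Real.log ((2 : ℝ) ^ s) = s * Real.log 2 := Real.log_pow 2 s
  rw [hlog] at h
  have hlog2 : Real.log ((2 : ℝ) ^ s + 1) ≤ (s + 1) * Real.log 2 := by
    have h1 : (2 : ℝ) ^ s + 1 ≤ (2 : ℝ) ^ (s + 1) := by
      have : (1 : ℝ) ≤ (2 : ℝ) ^ s := one_le_pow₀ (by norm_num)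
      rw [pow_succ]
      linarith
    have h2 := Real.log_le_log (by positivity) h1
    rw [Real.log_pow] at h2
    push_cast at h2
    exact h2
  refine le_trans ?_ h
  rw [le_div_iff₀ (by positivity)]
  have h3 : ((2 : ℝ) ^ s / s - 2) * (s * Real.log 2)
      = (2 : ℝ) ^ s * Real.log 2 - 2 * s * Real.log 2 := by
    field_simp
  rw [h3]
  have h4 : ((s : ℝ) + 1) * Real.log 2 ≤ 2 * s * Real.log 2 := by
    have : (1 : ℝ) ≤ s := by exact_mod_cast hs
    nlinarith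
  linarith

private lemma pi_upper (t : ℕ) (ht : 1 ≤ t) :
    (Nat.primeCounting (2 ^ t) : ℝ) ≤ 4 * (2 : ℝ) ^ t / t + Real.sqrt ((2 : ℝ) ^ t) := by
  have hx : (1 : ℝ) < (2 : ℝ) ^ t := one_lt_pow₀ (by norm_num) (by omega)
  have h := Chebyshev.pi_le_log4_mul_div hx
  have hfl : ⌊(2 : ℝ) ^ t⌋₊ = 2 ^ t := by
    have : ((2 : ℝ) ^ t) = ((2 ^ t : ℕ) : ℝ) := by push_cast; rfl
    rw [this, Nat.floor_natCast]
  rw [hfl] at h
  have hl2 : 0 < Real.log 2 := Real.log_pos (by norm_num)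
  have ht0 : (0 : ℝ) < t := by exact_mod_cast ht
  have hsq : Real.log (Real.sqrt ((2 : ℝ) ^ t)) = t * Real.log 2 / 2 := by
    rw [Real.log_sqrt (by positivity), Real.log_pow]
  have h4 : Real.log 4 = 2 * Real.log 2 := by
    rw [show (4 : ℝ) = 2 ^ 2 by norm_num, Real.log_pow]
    norm_num
  rw [hsq, h4] at h
  have h5 : 2 * Real.log 2 * (2 : ℝ) ^ t / (t * Real.log 2 / 2) = 4 * (2 : ℝ) ^ t / t := by
    field_simp
    ring
  rw [h5] at h
  exact h

private lemma primeCounting_eq_card (n : ℕ) :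
    Nat.primeCounting n = ((Finset.range (n + 1)).filter Nat.Prime).card := by
  rw [Nat.primeCounting, Nat.primeCounting', Nat.count_eq_card_filter_range]

/-- many primes in `(2^(s-3), 2^s]` -/
private lemma many_primes (s : ℕ) (hs : 16 ≤ s) :
    2 ^ s / (8 * s) + 1 ≤
      (((Finset.range (2 ^ s + 1)).filter Nat.Prime) \
        ((Finset.range (2 ^ (s - 3) + 1)).filter Nat.Prime)).card := by
  have h1 := pi_lower s (by omega)
  have h2 := pi_upper (s - 3) (by omega)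
  have hcard := Finset.le_card_sdiff ((Finset.range (2 ^ (s - 3) + 1)).filter Nat.Prime)
    ((Finset.range (2 ^ s + 1)).filter Nat.Prime)
  rw [← primeCounting_eq_card, ← primeCounting_eq_card] at hcard
  refine le_trans ?_ hcard
  have hsR : (16 : ℝ) ≤ s := by exact_mod_cast hs
  have hs0 : (0 : ℝ) < s := by linarith
  have hx72 : 72 * (s : ℝ) ^ 2 ≤ (2 : ℝ) ^ s := by exact_mod_cast sq_le_two_pow s hs
  have hy : (2 : ℝ) ^ (s - 3) = (2 : ℝ) ^ s / 8 := by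
    have : (2 : ℝ) ^ s = (2 : ℝ) ^ (s - 3) * 2 ^ 3 := by
      rw [← pow_add]
      congr 1
      omega
    rw [this]
    norm_num
  have hcast3 : ((s - 3 : ℕ) : ℝ) = (s : ℝ) - 3 := by
    rw [Nat.cast_sub (by omega)]
    norm_num
  rw [hy, hcast3] at h2
  set x : ℝ := (2 : ℝ) ^ s with hx
  have hxpos : 0 < x := by positivity
  -- the square root term
  have hsqrt : Real.sqrt (x / 8) ≤ x / (24 * s) := by
    rw [Real.sqrt_le_left (by positivity)]
    rw [div_pow, div_le_div_iff₀ (by norm_num) (by positivity)]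
    have : x * (24 * (s : ℝ)) ^ 2 = 8 * x * (72 * (s : ℝ) ^ 2) := by ring
    rw [this]
    nlinarith
  -- the main term
  have hmain : 4 * (x / 8) / ((s : ℝ) - 3) ≤ 2 * x / (3 * s) := by
    rw [div_le_div_iff₀ (by linarith) (by positivity)]
    nlinarith
  have hM : ((2 ^ s / (8 * s) : ℕ) : ℝ) ≤ x / (8 * s) := by
    have := @Nat.cast_div_le ℝ _ _ _ (2 ^ s) (8 * s)
    push_cast at this
    exact this
  have hx18 : 3 ≤ x / (6 * s) := by
    rw [le_div_iff₀ (by positivity)]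
    nlinarith
  have hsplit : x / s = 2 * x / (3 * s) + x / (24 * s) + x / (8 * s) + x / (6 * s) := by
    field_simp
    ring
  have hfin : ((2 ^ s / (8 * s) + 1 : ℕ) : ℝ) + (Nat.primeCounting (2 ^ (s - 3)) : ℝ)
      ≤ (Nat.primeCounting (2 ^ s) : ℝ) := by
    push_cast
    linarith
  have hfin' : 2 ^ s / (8 * s) + 1 + Nat.primeCounting (2 ^ (s - 3))
      ≤ Nat.primeCounting (2 ^ s) := by exact_mod_cast hfin
  omega

private lemma arith_aux (X Y Z : ℕ) (h1 : Y ≤ Z) (h2 : 2 ^ 11 ≤ X) (h3 : Z * 1536 ≤ X) :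
    (Y + 1) * 2 ^ 9 ≤ X := by
  have e1 : (2 : ℕ) ^ 11 = 2048 := by norm_num
  have e2 : (2 : ℕ) ^ 9 = 512 := by norm_num
  rw [e1] at h2
  rw [e2]
  linarith

theorem pool_exists : ∃ μ₀ : ℕ, ∀ μ ≥ μ₀, ∃ (M : ℕ) (pr : Fin M → ℕ),
    Function.Injective pr ∧ (∀ i, (pr i).Prime) ∧ (∀ i, 2 ^ (sig μ - 3) < pr i) ∧
    (∀ i, pr i ≤ 2 ^ (sig μ)) ∧ 2 ^ (sig μ) ≤ 8 * sig μ * M ∧ M * 2 ^ 9 ≤ 2 ^ (sig μ) ∧
    4 * (nn μ) ^ 2 ≤ M := by
  refine ⟨2, fun μ hμ => ?_⟩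
  set s := sig μ with hs
  have hτ : 4 ≤ 2 ^ μ := by
    calc 4 = 2 ^ 2 := by norm_num
      _ ≤ 2 ^ μ := Nat.pow_le_pow_right (by norm_num) hμ
  have hs192 : 192 ≤ s := by
    rw [hs, sig]
    omega
  obtain ⟨S, hS, hScard⟩ := Finset.exists_subset_card_eq (many_primes s (by omega))
  refine ⟨2 ^ s / (8 * s) + 1, fun i => S.orderEmbOfFin hScard i, ?_, ?_, ?_, ?_, ?_, ?_, ?_⟩
  · exact (S.orderEmbOfFin hScard).injective
  · intro i
    have := hS (S.orderEmbOfFin_mem hScard i)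
    rw [Finset.mem_sdiff, Finset.mem_filter] at this
    exact this.1.2
  · intro i
    have := hS (S.orderEmbOfFin_mem hScard i)
    rw [Finset.mem_sdiff, Finset.mem_filter, Finset.mem_filter, Finset.mem_range,
      Finset.mem_range] at this
    show 2 ^ (s - 3) < S.orderEmbOfFin hScard i
    by_contra hcon
    exact this.2 ⟨by omega, this.1.2⟩
  · intro i
    have := hS (S.orderEmbOfFin_mem hScard i)
    rw [Finset.mem_sdiff, Finset.mem_filter, Finset.mem_range] at this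
    show S.orderEmbOfFin hScard i ≤ 2 ^ s
    omega
  · have h8 : 0 < 8 * s := by omega
    have := Nat.lt_div_mul_add h8 (a := 2 ^ s)
    nlinarith
  · have h1 : 2 ^ s / (8 * s) ≤ 2 ^ s / 1536 := Nat.div_le_div_left (by omega) (by norm_num)
    have h2 : 2 ^ 11 ≤ 2 ^ s := Nat.pow_le_pow_right (by norm_num) (by omega)
    have h3 : 2 ^ s / 1536 * 1536 ≤ 2 ^ s := Nat.div_mul_le_self _ _
    exact arith_aux _ _ _ h1 h2 h3
  · -- `4 n^2 = 2^(2+2τ)`, `8 s = 384 τ ≤ 2^(9+τ)`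
    have hτlt : 2 ^ μ < 2 ^ (2 ^ μ) := Nat.lt_two_pow_self
    have h8s : 8 * s ≤ 2 ^ (9 + 2 ^ μ) := by
      rw [hs, sig, pow_add]
      norm_num
      omega
    have hnn : 4 * (nn μ) ^ 2 = 2 ^ (2 + 2 * 2 ^ μ) := by
      rw [nn, pow_add, ← pow_mul]
      ring_nf
    rw [hnn]
    have hle : 2 ^ (2 + 2 * 2 ^ μ) * (8 * s) ≤ 2 ^ s := by
      calc 2 ^ (2 + 2 * 2 ^ μ) * (8 * s) ≤ 2 ^ (2 + 2 * 2 ^ μ) * 2 ^ (9 + 2 ^ μ) :=
            Nat.mul_le_mul_left _ h8s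
        _ = 2 ^ (2 + 2 * 2 ^ μ + (9 + 2 ^ μ)) := by rw [← pow_add]
        _ ≤ 2 ^ s := by
            apply Nat.pow_le_pow_right (by norm_num)
            rw [hs, sig]
            omega
    have := (Nat.le_div_iff_mul_le (by omega : 0 < 8 * s)).mpr hle
    omega

end Vale.Agent.Lib.P012.LL
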