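import Vale.Agent.Lib.P012.LL.DesignGeneral
import Vale.Agent.Lib.P012.LL.DesignNumeric
import Vale.Agent.Lib.P012.LL.Pool

/-! # D9: the design theorem -/

namespace Vale.Agent.Lib.P012.LL
open Finset

lemma nu_le_nn (μ : ℕ) : nu μ ≤ nn μ := by
  unfold nu nn
  exact Nat.pow_le_pow_right (by norm_num) (Nat.sub_le _ _)

lemma one_le_nn (μ : ℕ) : 1 ≤ nn μ := Nat.one_le_two_pow

lemma one_le_sig (μ : ℕ) : 1 ≤ sig μ := by
  unfold sig
  have : 1 ≤ 2 ^ μ := Nat.one_le_two_pow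
  omega

lemma one_le_RR (μ : ℕ) : 1 ≤ RR μ := Nat.one_le_two_pow

theorem design : ∃ μ₀ : ℕ, ∀ μ ≥ μ₀, ∃ (A pool Exc : Finset ℕ) (DA : ℕ),
    A.Nonempty ∧ 0 < DA ∧ DA ≤ 2 ^ (sig μ * nn μ) ∧ (∀ a ∈ A, a ∣ DA) ∧
    (∀ p ∈ pool, p.Prime) ∧ pool.card ≤ 2 ^ (sig μ) ∧
    ∑ p ∈ pool, (1 : ℚ) / p ≤ 1 / 64 ∧
    ∑ e ∈ Exc, (1 : ℚ) / 1024 ^ (lev e) ≤ 1 / 64 ∧ (∀ e ∈ Exc, 0 < e) ∧
    (∀ e, RR μ < e → e < 2 ^ (nu μ + 1) → (∀ p ∈ pool, ¬ p ∣ e) → e ∉ Exc → GoodMod A e) := by
  classical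
  obtain ⟨μ1, h1⟩ := design_numeric
  obtain ⟨μ2, h2⟩ := pool_exists
  refine ⟨max μ1 μ2, fun μ hμ => ?_⟩
  obtain ⟨M, pr, hinj, hprime, hlo, hle, hM1, hM2, hM3⟩ := h2 μ (le_trans (le_max_right _ _) hμ)
  have hnum := h1 μ (le_trans (le_max_left _ _) hμ) M hM1
  have a1 := nu_le_nn μ
  have a2 := one_le_nn μ
  have a3 : 3 ≤ sig μ := by
    unfold sig
    have : 1 ≤ 2 ^ μ := Nat.one_le_two_pow
    omega
  have a4 := one_le_RR μ
  generalize nn μ = n at *
  generalize sig μ = σ at *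
  generalize RR μ = R at *
  generalize nu μ = ν at *
  obtain ⟨C, hCdef⟩ : ∃ C, C = (Finset.Ioo R (2 ^ (ν + 1))).filter (fun e => ∀ i, ¬ pr i ∣ e) :=
    ⟨_, rfl⟩
  obtain ⟨wt, hwtdef⟩ : ∃ wt : ℕ → ℚ, wt = fun e => 256 / (4 ^ (lev e) * 4 ^ n) := ⟨_, rfl⟩
  have hwt : ∀ e, 0 ≤ wt e := fun e => by rw [hwtdef]; positivity
  have hC : ∀ e ∈ C, 1 < e ∧ (∀ i, ¬ pr i ∣ e) ∧ Nat.clog (2 ^ σ) e ≤ n := by
    intro e he
    rw [hCdef, Finset.mem_filter, Finset.mem_Ioo] at he
    refine ⟨lt_of_le_of_lt a4 he.1.1, he.2, ?_⟩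
    apply Nat.clog_le_of_le_pow
    rw [← pow_mul]
    refine he.1.2.le.trans (Nat.pow_le_pow_right (by norm_num) ?_)
    calc ν + 1 ≤ n + n := by omega
      _ = 2 * n := by ring
      _ ≤ σ * n := Nat.mul_le_mul_right _ (by omega)
  obtain ⟨f, hf, hsum⟩ := design_general pr hinj hprime σ (by omega) hle a2 hM3 C hC
    wt hwt
  have hcard : (Aset pr f).card = 2 ^ n := card_Aset pr hinj hprime f hf
  refine ⟨Aset pr f, Finset.univ.image pr, C.filter (fun e => ¬ GoodMod (Aset pr f) e),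
    uprod pr f Finset.univ, ?_, ?_, ?_, ?_, ?_, ?_, ?_, ?_, ?_, ?_⟩
  · rw [← Finset.card_pos, hcard]; positivity
  · exact Finset.prod_pos (fun j _ => (hprime _).pos)
  · calc uprod pr f Finset.univ ≤ (2 ^ σ) ^ (Finset.univ : Finset (Fin n)).card :=
          Finset.prod_le_pow_card _ _ _ (fun j _ => hle _)
      _ = 2 ^ (σ * n) := by rw [Finset.card_univ, Fintype.card_fin, ← pow_mul]
  · intro a ha; exact dvd_of_mem_Aset pr f ha
  · intro p hp
    obtain ⟨i, _, rfl⟩ := Finset.mem_image.mp hp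
    exact hprime i
  · calc (Finset.univ.image pr).card ≤ (Finset.univ : Finset (Fin M)).card := Finset.card_image_le
      _ = M := by rw [Finset.card_univ, Fintype.card_fin]
      _ ≤ M * 2 ^ 9 := Nat.le_mul_of_pos_right _ (by positivity)
      _ ≤ 2 ^ σ := hM2
  · rw [Finset.sum_image (fun a _ b _ h => hinj h)]
    have hb : ∀ i ∈ (Finset.univ : Finset (Fin M)), (1 : ℚ) / pr i ≤ 1 / 2 ^ (σ - 3) := by
      intro i _
      apply one_div_le_one_div_of_le (by positivity)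
      exact_mod_cast (hlo i).le
    calc ∑ i : Fin M, (1 : ℚ) / pr i ≤ ∑ _i : Fin M, (1 : ℚ) / 2 ^ (σ - 3) := Finset.sum_le_sum hb
      _ = M * (1 / 2 ^ (σ - 3)) := by
          rw [Finset.sum_const, Finset.card_univ, Fintype.card_fin, nsmul_eq_mul]
      _ ≤ 1 / 64 := by
          have e1 : (2 : ℚ) ^ σ = 2 ^ (σ - 3) * 8 := by
            rw [show (8 : ℚ) = 2 ^ 3 by norm_num, ← pow_add]; congr 1; omega
          have e2 : (M : ℚ) * 2 ^ 9 ≤ 2 ^ σ := by exact_mod_cast hM2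
          have e3 : (0 : ℚ) < 2 ^ (σ - 3) := by positivity
          rw [mul_one_div, div_le_div_iff₀ e3 (by norm_num)]
          rw [e1] at e2
          nlinarith
  · -- the exceptional set is sparse
    have step1 : ∑ e ∈ C.filter (fun e => ¬ GoodMod (Aset pr f) e), (1 : ℚ) / 1024 ^ (lev e)
        ≤ ∑ e ∈ C, wt e * (EE (Aset pr f) e : ℚ) := by
      calc ∑ e ∈ C.filter (fun e => ¬ GoodMod (Aset pr f) e), (1 : ℚ) / 1024 ^ (lev e)
          ≤ ∑ e ∈ C.filter (fun e => ¬ GoodMod (Aset pr f) e), wt e * (EE (Aset pr f) e : ℚ) := by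
            apply Finset.sum_le_sum
            intro e he
            have hbad := (Finset.mem_filter.mp he).2
            unfold GoodMod at hbad
            rw [hcard, not_le] at hbad
            have hbad' : ((2 : ℚ) ^ n) ^ 2 ≤ (EE (Aset pr f) e : ℚ) * 256 ^ (lev e + 1) := by
              exact_mod_cast hbad.le
            have e4 : ((2 : ℚ) ^ n) ^ 2 = 4 ^ n := by
              rw [← pow_mul, mul_comm, pow_mul]; norm_num
            rw [e4] at hbad'
            have e5 : (256 : ℚ) ^ (lev e + 1) = 256 * (4 ^ (lev e) * 4 ^ (lev e) * 4 ^ (lev e) * 4 ^ (lev e)) := by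
              rw [pow_succ, ← mul_pow, ← mul_pow, ← mul_pow]; norm_num [mul_comm]
            have e6 : (1024 : ℚ) ^ (lev e) = 4 ^ (lev e) * 4 ^ (lev e) * 4 ^ (lev e) * 4 ^ (lev e) * 4 ^ (lev e) := by
              rw [← mul_pow, ← mul_pow, ← mul_pow, ← mul_pow]; norm_num
            rw [hwtdef]
            simp only
            rw [e6, div_mul_eq_mul_div, div_le_div_iff₀ (by positivity) (by positivity)]
            rw [e5] at hbad'
            set X : ℚ := 4 ^ (lev e) with hX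
            have hXpos : 0 < X := by positivity
            have : 0 < X * X * X * X * X := by positivity
            nlinarith [mul_le_mul_of_nonneg_left hbad' hXpos.le]
        _ ≤ ∑ e ∈ C, wt e * (EE (Aset pr f) e : ℚ) := by
            apply Finset.sum_le_sum_of_subset_of_nonneg (Finset.filter_subset _ _)
            intro e _ _
            exact mul_nonneg (hwt e) (by positivity)
    have step2 : ∑ e ∈ C, wt e * (2 ^ n + 2 * 4 ^ n * epsB M σ e)
        ≤ ∑ e ∈ Finset.Ioo R (2 ^ (ν + 1)),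
          (256 / 4 ^ (lev e) : ℚ) * (1 / 2 ^ n + 2 * epsB M σ e) := by
      have hnonneg : ∀ e, 0 ≤ epsB M σ e := by
        intro e; unfold epsB; positivity
      calc ∑ e ∈ C, wt e * (2 ^ n + 2 * 4 ^ n * epsB M σ e)
          = ∑ e ∈ C, (256 / 4 ^ (lev e) : ℚ) * (1 / 2 ^ n + 2 * epsB M σ e) := by
            apply Finset.sum_congr rfl
            intro e _
            rw [hwtdef]
            simp only
            have e4 : (4 : ℚ) ^ n = 2 ^ n * 2 ^ n := by rw [← mul_pow]; norm_num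
            rw [e4]
            field_simp
        _ ≤ _ := by
            rw [hCdef]
            apply Finset.sum_le_sum_of_subset_of_nonneg (Finset.filter_subset _ _)
            intro e _ _
            have := hnonneg e
            positivity
    exact step1.trans (hsum.trans (step2.trans hnum))
  · intro e he
    have := (hC e (Finset.mem_filter.mp he).1).1
    omega
  · intro e he1 he2 hpool hExc
    by_contra hbad
    apply hExc
    rw [Finset.mem_filter, hCdef, Finset.mem_filter, Finset.mem_Ioo]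
    refine ⟨⟨⟨he1, he2⟩, fun i => hpool _ (Finset.mem_image_of_mem _ (Finset.mem_univ i))⟩, hbad⟩

end Vale.Agent.Lib.P012.LL
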