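import Vale.Agent.Lib.P012.LL.Defs

/-! # D5: most designs are injective -/

namespace Vale.Agent.Lib.P012.LL
open Finset

private theorem pow_le_descFactorial_aux (M : ℕ) :
    ∀ k : ℕ, k ≤ M → M ^ (k + 1) ≤ M.descFactorial k * M + k * k * M ^ k := by
  intro k
  induction k with
  | zero => intro _; simp
  | succ k ih =>
    intro hk
    have hk' : k ≤ M := by omega
    have h1 := ih hk'
    obtain ⟨a, ha⟩ : ∃ a, M = a + k := ⟨M - k, by omega⟩
    have hsub : M - k = a := by omega
    have hD : M.descFactorial k ≤ M ^ k := Nat.descFactorial_le_pow M k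
    rw [Nat.descFactorial_succ, hsub]
    set D := M.descFactorial k with hDdef
    set P := M ^ k with hP
    have e1 : M ^ (k + 1) = P * M := by rw [hP, pow_succ]
    have e2 : M ^ (k + 1 + 1) = P * M * M := by rw [pow_succ, e1]
    rw [e2, e1]
    rw [e1] at h1
    -- `P*M*M ≤ (D*M + k*k*P)*M`, `D*M*M = a*D*M + k*D*M ≤ a*D*M + k*P*M`
    have h2 : P * M * M ≤ (D * M + k * k * P) * M := Nat.mul_le_mul_right M h1
    have h3 : D * M * M = a * D * M + k * (D * M) := by
      have : D * M * M = (a + k) * (D * M) := by rw [← ha]; ring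
      rw [this]; ring
    have h4 : k * (D * M) ≤ k * (P * M) := Nat.mul_le_mul_left k (Nat.mul_le_mul_right M hD)
    calc P * M * M ≤ (D * M + k * k * P) * M := h2
      _ = D * M * M + k * k * (P * M) := by ring
      _ = a * D * M + k * (D * M) + k * k * (P * M) := by rw [h3]
      _ ≤ a * D * M + k * (P * M) + k * k * (P * M) := by omega
      _ ≤ a * D * M + (k + 1) * (k + 1) * (P * M) := by nlinarith [Nat.zero_le (P * M)]

theorem card_injective_ge {M n : ℕ} (hM : 4 * n ^ 2 ≤ M) :
    3 * M ^ n ≤ 4 * ((Finset.univ : Finset (Fin n → Fin M)).filter Function.Injective).card := by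
  classical
  have hcard : ((Finset.univ : Finset (Fin n → Fin M)).filter Function.Injective).card
      = M.descFactorial n := by
    rw [← Fintype.card_subtype,
      Fintype.card_congr (Equiv.subtypeInjectiveEquivEmbedding (Fin n) (Fin M)),
      Fintype.card_embedding_eq, Fintype.card_fin, Fintype.card_fin]
  rw [hcard]
  have hn : n ≤ M := by nlinarith [Nat.zero_le n]
  rcases Nat.eq_zero_or_pos M with h0 | hpos
  · subst h0
    have : n = 0 := by omega
    subst this
    simp
  have h1 := pow_le_descFactorial_aux M n hn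
  have e1 : M ^ (n + 1) = M ^ n * M := pow_succ M n
  rw [e1] at h1
  have h2 : 4 * (n * n * M ^ n) ≤ M ^ n * M := by
    have : 4 * (n * n) ≤ M := by nlinarith
    calc 4 * (n * n * M ^ n) = (4 * (n * n)) * M ^ n := by ring
      _ ≤ M * M ^ n := Nat.mul_le_mul_right _ this
      _ = M ^ n * M := by ring
  have h3 : (3 * M ^ n) * M ≤ (4 * M.descFactorial n) * M := by nlinarith
  exact Nat.le_of_mul_le_mul_right h3 hpos

end Vale.Agent.Lib.P012.LL
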