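import Vale.Agent.Lib.P012.LL.SumTr
import Vale.Agent.Lib.P012.LL.AsetLemmas
import Vale.Agent.Lib.P012.LL.InjCount

/-! # D6: averaging over the design -/

namespace Vale.Agent.Lib.P012.LL
open Finset

private theorem epsB_nonneg (M σ e : ℕ) : 0 ≤ epsB M σ e := by
  unfold epsB
  positivity

private theorem sum_Psi_le {M n : ℕ} (pr : Fin M → ℕ) (hinj : Function.Injective pr)
    (hprime : ∀ i, (pr i).Prime) (σ : ℕ) (hle : ∀ i, pr i ≤ 2 ^ σ)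
    (hMpos : 0 < M)
    (C : Finset ℕ) (hC : ∀ e ∈ C, 1 < e ∧ (∀ i, ¬ pr i ∣ e) ∧ Nat.clog (2 ^ σ) e ≤ n)
    (wt : ℕ → ℚ) (hwt : ∀ e, 0 ≤ wt e) :
    ∑ f : Fin n → Fin M, ∑ e ∈ C, wt e * (TrJ pr f e (Nat.clog (2 ^ σ) e) : ℚ)
      ≤ (M : ℚ) ^ n * ∑ e ∈ C, wt e * (4 ^ n * epsB M σ e) := by
  rw [Finset.sum_comm, Finset.mul_sum]
  apply Finset.sum_le_sum
  intro e he
  obtain ⟨he1, hcop, hhn⟩ := hC e he
  rw [← Finset.mul_sum]
  have key := sum_TrJ_le pr hinj hprime σ hle e (by omega) hcop (Nat.clog (2 ^ σ) e) hhn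
  have key' : (∑ f : Fin n → Fin M, (TrJ pr f e (Nat.clog (2 ^ σ) e) : ℚ))
      ≤ (4 : ℚ) ^ n * ((M : ℚ) ^ (n - Nat.clog (2 ^ σ) e)
        * (((2 ^ σ) ^ (Nat.clog (2 ^ σ) e) / e + 1 : ℕ) : ℚ)
        * ((σ * Nat.clog (2 ^ σ) e : ℕ) : ℚ) ^ (Nat.clog (2 ^ σ) e)) := by
    exact_mod_cast key
  have hMq : (0 : ℚ) < (M : ℚ) := by exact_mod_cast hMpos
  have hM' : (M : ℚ) ^ (n - Nat.clog (2 ^ σ) e)
      = (M : ℚ) ^ n / (M : ℚ) ^ (Nat.clog (2 ^ σ) e) := by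
    rw [eq_div_iff (by positivity), ← pow_add, Nat.sub_add_cancel hhn]
  calc wt e * ∑ f : Fin n → Fin M, (TrJ pr f e (Nat.clog (2 ^ σ) e) : ℚ)
      ≤ wt e * ((4 : ℚ) ^ n * ((M : ℚ) ^ (n - Nat.clog (2 ^ σ) e)
        * (((2 ^ σ) ^ (Nat.clog (2 ^ σ) e) / e + 1 : ℕ) : ℚ)
        * ((σ * Nat.clog (2 ^ σ) e : ℕ) : ℚ) ^ (Nat.clog (2 ^ σ) e))) :=
        mul_le_mul_of_nonneg_left key' (hwt e)
    _ = (M : ℚ) ^ n * (wt e * (4 ^ n * epsB M σ e)) := by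
        unfold epsB
        rw [hM']
        ring

theorem design_general {M n : ℕ} (pr : Fin M → ℕ) (hinj : Function.Injective pr)
    (hprime : ∀ i, (pr i).Prime) (σ : ℕ) (hσ : 1 ≤ σ) (hle : ∀ i, pr i ≤ 2 ^ σ)
    (hn : 1 ≤ n) (hM : 4 * n ^ 2 ≤ M)
    (C : Finset ℕ) (hC : ∀ e ∈ C, 1 < e ∧ (∀ i, ¬ pr i ∣ e) ∧ Nat.clog (2 ^ σ) e ≤ n)
    (wt : ℕ → ℚ) (hwt : ∀ e, 0 ≤ wt e) :
    ∃ f : Fin n → Fin M, Function.Injective f ∧
      ∑ e ∈ C, wt e * (EE (Aset pr f) e : ℚ)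
        ≤ ∑ e ∈ C, wt e * (2 ^ n + 2 * 4 ^ n * epsB M σ e) := by
  classical
  have hb : 1 < 2 ^ σ := Nat.one_lt_two_pow (by omega)
  have hMpos : 0 < M := by
    have : 1 ≤ n ^ 2 := Nat.one_le_pow _ _ hn
    omega
  have hMq : (0 : ℚ) < (M : ℚ) := by exact_mod_cast hMpos
  have hB0 : 0 ≤ ∑ e ∈ C, wt e * (4 ^ n * epsB M σ e) :=
    Finset.sum_nonneg fun e _ => mul_nonneg (hwt e) (mul_nonneg (by positivity) (epsB_nonneg M σ e))
  have hsum := sum_Psi_le (n := n) pr hinj hprime σ hle hMpos C hC wt hwt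
  have hcard := card_injective_ge (M := M) (n := n) hM
  have hcardq : 3 * (M : ℚ) ^ n
      ≤ 4 * (((Finset.univ : Finset (Fin n → Fin M)).filter Function.Injective).card : ℚ) := by
    exact_mod_cast hcard
  have hne : ((Finset.univ : Finset (Fin n → Fin M)).filter Function.Injective).Nonempty := by
    rw [← Finset.card_pos]
    have : 0 < M ^ n := pow_pos hMpos n
    omega
  have hsub : ∑ f ∈ (Finset.univ : Finset (Fin n → Fin M)).filter Function.Injective,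
        ∑ e ∈ C, wt e * (TrJ pr f e (Nat.clog (2 ^ σ) e) : ℚ)
      ≤ ∑ f : Fin n → Fin M, ∑ e ∈ C, wt e * (TrJ pr f e (Nat.clog (2 ^ σ) e) : ℚ) := by
    apply Finset.sum_le_sum_of_subset_of_nonneg (Finset.filter_subset _ _)
    intro f _ _
    exact Finset.sum_nonneg fun e _ => mul_nonneg (hwt e) (by positivity)
  have havg : ∑ f ∈ (Finset.univ : Finset (Fin n → Fin M)).filter Function.Injective,
        ∑ e ∈ C, wt e * (TrJ pr f e (Nat.clog (2 ^ σ) e) : ℚ)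
      ≤ ∑ _f ∈ (Finset.univ : Finset (Fin n → Fin M)).filter Function.Injective,
        2 * ∑ e ∈ C, wt e * (4 ^ n * epsB M σ e) := by
    rw [Finset.sum_const, nsmul_eq_mul]
    have hMn : (0 : ℚ) ≤ (M : ℚ) ^ n := by positivity
    nlinarith [hsub, hsum, hcardq, hB0, mul_le_mul_of_nonneg_right hcardq hB0]
  obtain ⟨f, hfS, hf⟩ := Finset.exists_le_of_sum_le hne havg
  have hfinj : Function.Injective f := (Finset.mem_filter.mp hfS).2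
  refine ⟨f, hfinj, ?_⟩
  have h1 : ∑ e ∈ C, wt e * (EE (Aset pr f) e : ℚ)
      ≤ ∑ e ∈ C, wt e * (2 ^ n + (TrJ pr f e (Nat.clog (2 ^ σ) e) : ℚ)) := by
    apply Finset.sum_le_sum
    intro e he
    obtain ⟨he1, hcop, hhn⟩ := hC e he
    have hpos : 1 ≤ Nat.clog (2 ^ σ) e := Nat.clog_pos hb (by omega)
    have hlt : (2 ^ σ) ^ (Nat.clog (2 ^ σ) e - 1) < e := by
      have := Nat.pow_pred_clog_lt_self hb he1
      simpa [Nat.pred_eq_sub_one] using this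
    have := EE_Aset_le pr hinj hprime σ hle f hfinj e (Nat.clog (2 ^ σ) e) hcop hpos hlt
    have hq : (EE (Aset pr f) e : ℚ) ≤ 2 ^ n + (TrJ pr f e (Nat.clog (2 ^ σ) e) : ℚ) := by
      exact_mod_cast this
    exact mul_le_mul_of_nonneg_left hq (hwt e)
  have h2 : ∑ e ∈ C, wt e * (2 ^ n + (TrJ pr f e (Nat.clog (2 ^ σ) e) : ℚ))
      = ∑ e ∈ C, wt e * 2 ^ n + ∑ e ∈ C, wt e * (TrJ pr f e (Nat.clog (2 ^ σ) e) : ℚ) := by
    rw [← Finset.sum_add_distrib]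
    exact Finset.sum_congr rfl fun e _ => by ring
  have h3 : ∑ e ∈ C, wt e * (2 ^ n + 2 * 4 ^ n * epsB M σ e)
      = ∑ e ∈ C, wt e * 2 ^ n + 2 * ∑ e ∈ C, wt e * (4 ^ n * epsB M σ e) := by
    rw [Finset.mul_sum, ← Finset.sum_add_distrib]
    exact Finset.sum_congr rfl fun e _ => by ring
  rw [h3]
  linarith [h1, h2, hf]

end Vale.Agent.Lib.P012.LL
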