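import Vale.Agent.Lib.P012.LL.Core

/-! # T10: from `core` to `N(b) ≤ C log log b` -/

namespace Vale.Agent.Lib.P012.LL
open Finset

/-- the tower `2^(2^(2^μ))` is monotone in `μ`. -/
private theorem tower_mono {μ μ' : ℕ} (h : μ ≤ μ') :
    2 ^ (2 ^ (2 ^ μ)) ≤ 2 ^ (2 ^ (2 ^ μ')) :=
  Nat.pow_le_pow_right (by norm_num)
    (Nat.pow_le_pow_right (by norm_num) (Nat.pow_le_pow_right (by norm_num) h))

/-- every `b` is below the tower at `b`. -/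
private theorem le_tower (b : ℕ) : b ≤ 2 ^ (2 ^ (2 ^ b)) := by
  have h1 : b < 2 ^ b := Nat.lt_two_pow_self
  have h2 : 2 ^ b < 2 ^ (2 ^ b) := Nat.lt_two_pow_self
  have h3 : 2 ^ (2 ^ b) < 2 ^ (2 ^ (2 ^ b)) := Nat.lt_two_pow_self
  omega

/-- if `b` exceeds the tower at `k + 1` then `2^(k+3) ≤ 8 log log b`. -/
private theorem loglog_ge {k b : ℕ} (hb : 2 ^ (2 ^ (2 ^ (k + 1))) < b) :
    (2 : ℝ) ^ (k + 2) ≤ 8 * Real.log (Real.log b) := by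
  have hl2 : (1 : ℝ) / 2 < Real.log 2 := by
    have := Real.log_two_gt_d9
    linarith
  have hl2pos : (0 : ℝ) < Real.log 2 := by linarith
  have hbR : ((2 : ℝ) ^ (2 ^ (2 ^ (k + 1)))) < (b : ℝ) := by
    exact_mod_cast hb
  have hpos : (0 : ℝ) < (2 : ℝ) ^ (2 ^ (2 ^ (k + 1))) := by positivity
  have h1 : Real.log ((2 : ℝ) ^ (2 ^ (2 ^ (k + 1)))) < Real.log b :=
    Real.log_lt_log hpos hbR
  rw [Real.log_pow] at h1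
  have h2 : ((2 : ℝ) ^ (2 ^ (k + 1))) * (1 / 2) < Real.log b := by
    have h3 : ((2 : ℝ) ^ (2 ^ (k + 1))) * (1 / 2) < ((2 : ℝ) ^ (2 ^ (k + 1))) * Real.log 2 :=
      mul_lt_mul_of_pos_left hl2 (by positivity)
    have h4 : (((2 ^ (2 ^ (k + 1)) : ℕ) : ℝ)) = (2 : ℝ) ^ (2 ^ (k + 1)) := by push_cast; ring
    rw [h4] at h1
    linarith
  have hone : 1 ≤ 2 ^ (k + 1) := Nat.one_le_two_pow
  have h5 : ((2 : ℝ) ^ (2 ^ (k + 1))) * (1 / 2) = (2 : ℝ) ^ (2 ^ (k + 1) - 1) := by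
    obtain ⟨m, hm⟩ : ∃ m, 2 ^ (k + 1) = m + 1 := ⟨2 ^ (k + 1) - 1, by omega⟩
    rw [hm, Nat.add_sub_cancel, pow_succ]
    ring
  rw [h5] at h2
  have h6 : Real.log ((2 : ℝ) ^ (2 ^ (k + 1) - 1)) < Real.log (Real.log b) :=
    Real.log_lt_log (by positivity) h2
  rw [Real.log_pow] at h6
  have h7 : ((2 ^ (k + 1) - 1 : ℕ) : ℝ) = (2 : ℝ) ^ (k + 1) - 1 := by
    rw [Nat.cast_sub hone]
    push_cast
    ring
  rw [h7] at h6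
  have h8 : (1 : ℝ) ≤ (2 : ℝ) ^ k := one_le_pow₀ (by norm_num)
  have h9 : (2 : ℝ) ^ (k + 1) = 2 * 2 ^ k := by ring
  have h10 : (2 : ℝ) ^ (k + 2) = 4 * 2 ^ k := by ring
  rw [h9] at h6
  rw [h10]
  have h11 : (2 : ℝ) ^ k * (1 / 2) ≤ (2 * 2 ^ k - 1) * Real.log 2 := by
    have : (2 : ℝ) ^ k ≤ 2 * 2 ^ k - 1 := by linarith
    calc (2 : ℝ) ^ k * (1 / 2) ≤ (2 * 2 ^ k - 1) * (1 / 2) := by
          apply mul_le_mul_of_nonneg_right this (by norm_num)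
      _ ≤ (2 * 2 ^ k - 1) * Real.log 2 := by
          apply mul_le_mul_of_nonneg_left hl2.le (by linarith)
  linarith

theorem final_of_core
    (hcore : ∃ μ₀ C₁ : ℕ, ∀ μ ≥ μ₀, ∀ a b : ℕ, 1 ≤ a → a < b → b ≤ 2 ^ (2 ^ (2 ^ μ)) →
      ∃ S : Finset ℕ, (∀ n ∈ S, 2 ≤ n) ∧ ∑ n ∈ S, (1 / (n : ℚ)) = (a : ℚ) / b ∧
        S.card ≤ C₁ * 2 ^ μ) :
    ∃ C : ℝ, ∃ b0 : ℕ, ∀ b ≥ b0, ∀ a, 1 ≤ a → a < b →
      ∃ S : Finset ℕ, (∀ n ∈ S, 2 ≤ n) ∧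
        ∑ n ∈ S, (1 / (n : ℚ)) = (a : ℚ) / b ∧ (S.card : ℝ) ≤ C * Real.log (Real.log b) := by
  obtain ⟨μ₀, C₁, hc⟩ := hcore
  refine ⟨8 * C₁, 2 ^ (2 ^ (2 ^ (μ₀ + 1))) + 1, ?_⟩
  intro b hb a ha hab
  classical
  have hex : ∃ μ, b ≤ 2 ^ (2 ^ (2 ^ μ)) := ⟨b, le_tower b⟩
  set μ := Nat.find hex with hμ
  have hμspec : b ≤ 2 ^ (2 ^ (2 ^ μ)) := Nat.find_spec hex
  have hμgt : μ₀ + 1 < μ := by
    by_contra hcon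
    have := tower_mono (not_lt.mp hcon)
    omega
  obtain ⟨k, hk⟩ : ∃ k, μ = k + 2 := ⟨μ - 2, by omega⟩
  have hmin : ¬ b ≤ 2 ^ (2 ^ (2 ^ (k + 1))) := Nat.find_min hex (by omega)
  have hll := loglog_ge (not_le.mp hmin)
  obtain ⟨S, hS2, hSsum, hScard⟩ := hc μ (by omega) a b ha hab hμspec
  refine ⟨S, hS2, hSsum, ?_⟩
  have h1 : (S.card : ℝ) ≤ (C₁ : ℝ) * (2 : ℝ) ^ μ := by exact_mod_cast hScard
  rw [hk] at h1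
  calc (S.card : ℝ) ≤ (C₁ : ℝ) * (2 : ℝ) ^ (k + 2) := h1
    _ ≤ (C₁ : ℝ) * (8 * Real.log (Real.log b)) :=
        mul_le_mul_of_nonneg_left hll (Nat.cast_nonneg _)
    _ = 8 * C₁ * Real.log (Real.log b) := by ring

theorem main_loglog : ∃ C : ℝ, ∃ b0 : ℕ, ∀ b ≥ b0, ∀ a, 1 ≤ a → a < b →
    ∃ S : Finset ℕ, (∀ n ∈ S, 2 ≤ n) ∧
      ∑ n ∈ S, (1 / (n : ℚ)) = (a : ℚ) / b ∧ (S.card : ℝ) ≤ C * Real.log (Real.log b) :=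
  final_of_core core

end Vale.Agent.Lib.P012.LL
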