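import Mathlib

/-! # Erdős's lower bound `N(b-1,b) ≫ log log b` (known; used only for a two-sided statement) -/

namespace Vale.Agent.Lib.P012.LL
open Finset

/-- The key induction, with the reciprocal map written on natural numbers. -/
theorem max_le_of_sum_aux (K : ℕ) : ∀ j : ℕ, j ≤ K → ∀ (q p : ℕ) (s : Multiset ℕ), 1 ≤ q → 1 ≤ p →
    Multiset.card s = j → (∀ m ∈ s, 1 ≤ m) →
    (s.map (fun m : ℕ => (1 / (m : ℚ)))).sum = (p : ℚ) / q → ∀ m ∈ s, m ≤ (K * q) ^ (2 ^ j) := by
  intro j
  induction j with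
  | zero =>
    intro _ q p s _ _ hc
    rw [Multiset.card_eq_zero] at hc
    subst hc
    intro _ _ m hm
    simp at hm
  | succ j ih =>
    intro hjK q p s hq hp hc hpos hsum
    have hne : s.toFinset.Nonempty := by
      rw [Finset.nonempty_iff_ne_empty]
      intro h
      rw [Multiset.toFinset_eq_empty] at h
      rw [h] at hc
      simp at hc
    obtain ⟨m0, hm0, hmin⟩ : ∃ m0 ∈ s, ∀ m ∈ s, m0 ≤ m :=
      ⟨s.toFinset.min' hne, Multiset.mem_toFinset.1 (Finset.min'_mem _ _),
        fun m hm => Finset.min'_le _ _ (Multiset.mem_toFinset.2 hm)⟩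
    have hm0pos : 1 ≤ m0 := hpos m0 hm0
    have hm0Q : (0 : ℚ) < m0 := by exact_mod_cast hm0pos
    have hqQ : (0 : ℚ) < q := by exact_mod_cast hq
    -- the least element is small
    have hbound : (s.map (fun m : ℕ => (1 / (m : ℚ)))).sum
        ≤ Multiset.card (s.map (fun m : ℕ => (1 / (m : ℚ)))) • (1 / (m0 : ℚ)) := by
      apply Multiset.sum_le_card_nsmul
      intro x hx
      obtain ⟨m, hm, rfl⟩ := Multiset.mem_map.1 hx
      have h1 : (m0 : ℚ) ≤ m := by exact_mod_cast hmin m hm
      exact one_div_le_one_div_of_le hm0Q h1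
    rw [Multiset.card_map, hc, hsum, nsmul_eq_mul, mul_one_div, div_le_div_iff₀ hqQ hm0Q] at hbound
    have hb2 : p * m0 ≤ (j + 1) * q := by exact_mod_cast hbound
    have hm0le : m0 ≤ K * q := by
      calc m0 = 1 * m0 := (one_mul _).symm
        _ ≤ p * m0 := Nat.mul_le_mul_right _ hp
        _ ≤ (j + 1) * q := hb2
        _ ≤ K * q := Nat.mul_le_mul_right _ hjK
    have hKq : 1 ≤ K * q := le_trans hm0pos hm0le
    obtain ⟨t, rfl⟩ := Multiset.exists_cons_of_mem hm0
    intro m hm
    rcases Multiset.mem_cons.1 hm with rfl | hmt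
    · calc m ≤ K * q := hm0le
        _ = (K * q) ^ 1 := (pow_one _).symm
        _ ≤ (K * q) ^ (2 ^ (j + 1)) := Nat.pow_le_pow_right hKq Nat.one_le_two_pow
    · rw [Multiset.map_cons, Multiset.sum_cons] at hsum
      have hct : Multiset.card t = j := by
        rw [Multiset.card_cons] at hc
        omega
      have hpost : ∀ m ∈ t, 1 ≤ m := fun m hm => hpos m (Multiset.mem_cons_of_mem hm)
      have htsum : (t.map (fun m : ℕ => (1 / (m : ℚ)))).sum = (p : ℚ) / q - 1 / m0 := by
        linarith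
      have htpos : 0 < (t.map (fun m : ℕ => (1 / (m : ℚ)))).sum := by
        obtain ⟨t', rfl⟩ := Multiset.exists_cons_of_mem hmt
        rw [Multiset.map_cons, Multiset.sum_cons]
        have h1 : (0 : ℚ) < 1 / (m : ℚ) := by
          have : (0 : ℚ) < m := by exact_mod_cast hpost m hmt
          positivity
        have h2 : 0 ≤ (t'.map (fun m : ℕ => (1 / (m : ℚ)))).sum := by
          apply Multiset.sum_nonneg
          intro x hx
          obtain ⟨m', _, rfl⟩ := Multiset.mem_map.1 hx
          positivity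
        linarith
      have hfrac : (p : ℚ) / q - 1 / m0 = ((p : ℚ) * m0 - q) / (q * m0) := by
        field_simp
      rw [htsum, hfrac] at htpos
      have hnum : (0 : ℚ) < (p : ℚ) * m0 - q := by
        by_contra hcon
        push Not at hcon
        have : ((p : ℚ) * m0 - q) / (q * m0) ≤ 0 :=
          div_nonpos_of_nonpos_of_nonneg hcon (by positivity)
        linarith
      have hlt : q < p * m0 := by
        have : (q : ℚ) < (p : ℚ) * m0 := by linarith
        exact_mod_cast this
      have hsum' : (t.map (fun m : ℕ => (1 / (m : ℚ)))).sum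
          = ((p * m0 - q : ℕ) : ℚ) / ((q * m0 : ℕ) : ℚ) := by
        rw [htsum, hfrac, Nat.cast_sub hlt.le]
        push_cast
        rfl
      have hih := ih (by omega) (q * m0) (p * m0 - q) t (Nat.mul_pos hq hm0pos) (by omega)
        hct hpost hsum' m hmt
      calc m ≤ (K * (q * m0)) ^ (2 ^ j) := hih
        _ ≤ (K * (q * (K * q))) ^ (2 ^ j) :=
            Nat.pow_le_pow_left (Nat.mul_le_mul_left _ (Nat.mul_le_mul_left _ hm0le)) _
        _ = (K * q) ^ (2 ^ (j + 1)) := by
            rw [pow_succ 2 j, pow_mul' (K * q) (2 ^ j) 2]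
            congr 1
            ring

/-- Key induction.  If `j ≤ K` positive integers have reciprocals summing to `p / q > 0`, then all of
them are at most `(K q)^(2^j)`.
Proof: induction on `j`.  The least element `m0` satisfies `1/m0 ≥ (p/q)/j ≥ 1/(K q)`, so
`m0 ≤ K q`.  The others (if any) have reciprocals summing to `(p m0 - q)/(q m0) > 0`, with
`q m0 ≤ K q^2`, so by induction they are `≤ (K * (K q^2))^(2^(j-1)) = (K q)^(2^j)`. -/
theorem max_le_of_sum (K : ℕ) : ∀ j : ℕ, j ≤ K → ∀ (q p : ℕ) (s : Multiset ℕ), 1 ≤ q → 1 ≤ p →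
    Multiset.card s = j → (∀ m ∈ s, 1 ≤ m) →
    (s.map (fun m => (1 / (m : ℚ)))).sum = (p : ℚ) / q → ∀ m ∈ s, m ≤ (K * q) ^ (2 ^ j) := by
  intro j hj q p s hq hp hc hpos hsum
  apply max_le_of_sum_aux K j hj q p s hq hp hc hpos
  have h1 : ((s : Multiset ℚ)) = s.map (fun a : ℕ => (a : ℚ)) := by simp
  rw [h1, Multiset.map_map] at hsum
  exact hsum

/-- apply `max_le_of_sum` to the multiset `b ::ₘ S.val`, whose reciprocals sum to `1 = 1/1`. -/
theorem lower_pow (b : ℕ) (hb : 2 ≤ b) (S : Finset ℕ) (hS : ∀ n ∈ S, 2 ≤ n)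
    (hsum : ∑ n ∈ S, (1 / (n : ℚ)) = ((b - 1 : ℕ) : ℚ) / b) :
    b ≤ (S.card + 1) ^ (2 ^ (S.card + 1)) := by
  have hbQ : (0 : ℚ) < b := by
    have : 0 < b := by omega
    exact_mod_cast this
  have h := max_le_of_sum_aux (S.card + 1) (S.card + 1) le_rfl 1 1 (b ::ₘ S.val) le_rfl le_rfl
    (by rw [Multiset.card_cons]; rfl)
    (by
      intro m hm
      rcases Multiset.mem_cons.1 hm with rfl | hm
      · omega
      · have := hS m hm
        omega)
    (by
      rw [Multiset.map_cons, Multiset.sum_cons]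
      have h1 : (S.val.map (fun m : ℕ => (1 / (m : ℚ)))).sum = ∑ n ∈ S, (1 / (n : ℚ)) := rfl
      rw [h1, hsum, Nat.cast_sub (by omega : 1 ≤ b)]
      push_cast
      field_simp
      ring)
    b (Multiset.mem_cons_self b _)
  rwa [mul_one] at h

/-- `log log b ≤ (k+1) log 2 + log log (k+1) ≤ 0.7 (k+1) + (k - 1) ≤ 2 k`, using `log x ≤ x - 1`
twice (`k = S.card ≥ 1` since the sum is positive). -/
theorem lower_loglog (b : ℕ) (hb : 3 ≤ b) (S : Finset ℕ) (hS : ∀ n ∈ S, 2 ≤ n)
    (hsum : ∑ n ∈ S, (1 / (n : ℚ)) = ((b - 1 : ℕ) : ℚ) / b) :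
    Real.log (Real.log b) ≤ 2 * (S.card : ℝ) := by
  have hpow := lower_pow b (by omega) S hS hsum
  have hk : 1 ≤ S.card := by
    rw [Nat.one_le_iff_ne_zero]
    intro h0
    rw [Finset.card_eq_zero] at h0
    rw [h0, Finset.sum_empty] at hsum
    have h1 : (0 : ℚ) < ((b - 1 : ℕ) : ℚ) / b := by
      have h2 : (0 : ℚ) < ((b - 1 : ℕ) : ℚ) := by
        have : 0 < b - 1 := by omega
        exact_mod_cast this
      have h3 : (0 : ℚ) < (b : ℚ) := by
        have : 0 < b := by omega
        exact_mod_cast this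
      positivity
    linarith
  set k := S.card with hkdef
  have hkR : (1 : ℝ) ≤ (k : ℝ) := by exact_mod_cast hk
  have hbR : (3 : ℝ) ≤ (b : ℝ) := by exact_mod_cast hb
  have hlogb : 0 < Real.log b := Real.log_pos (by linarith)
  have hpowR : (b : ℝ) ≤ ((k : ℝ) + 1) ^ (2 ^ (k + 1)) := by exact_mod_cast hpow
  have h1 : Real.log b ≤ (2 : ℝ) ^ (k + 1) * Real.log ((k : ℝ) + 1) := by
    have := Real.log_le_log (by linarith) hpowR
    rw [Real.log_pow] at this
    push_cast at this
    exact this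
  have hlk : 0 < Real.log ((k : ℝ) + 1) := Real.log_pos (by linarith)
  have h2 : Real.log (Real.log b)
      ≤ ((k : ℝ) + 1) * Real.log 2 + Real.log (Real.log ((k : ℝ) + 1)) := by
    have := Real.log_le_log hlogb h1
    rw [Real.log_mul (by positivity) hlk.ne', Real.log_pow] at this
    push_cast at this
    exact this
  have h3 : Real.log (Real.log ((k : ℝ) + 1)) ≤ Real.log ((k : ℝ) + 1) - 1 :=
    Real.log_le_sub_one_of_pos hlk
  have h4 : Real.log ((k : ℝ) + 1) ≤ (k : ℝ) + 1 - 1 :=
    Real.log_le_sub_one_of_pos (by linarith)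
  have h5 : Real.log 2 < 0.6931471808 := Real.log_two_lt_d9
  have h6 : ((k : ℝ) + 1) * Real.log 2 ≤ ((k : ℝ) + 1) * 0.6931471808 :=
    mul_le_mul_of_nonneg_left h5.le (by linarith)
  linarith

end Vale.Agent.Lib.P012.LL
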