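import Vale.Agent.Lib.P012.LL.URepBasic

/-! # T5: the descent. Every numerator `q < 2^E` over `K = 2^E * D * Ns` needs few unit fractions -/

namespace Vale.Agent.Lib.P012.LL
open Finset

/-- `PP K z k`: every numerator `q < 2^z` over `K` is a sum of at most `k` unit fractions. -/
def PP (K z k : ℕ) : Prop := ∀ q : ℕ, q < 2 ^ z → URep ((q : ℚ) / K) k

/-- T5a: base case from the old construction. -/
theorem PP_base {E D Ns hs z0 : ℕ} (hD : 0 < D) (hNs : Good Ns hs) (hz0 : 2 ^ z0 ≤ Ns) :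
    PP (2 ^ E * D * Ns) z0 hs := by
  intro q hq
  have hNs0 : 0 < Ns := lt_of_lt_of_le (by positivity) hz0
  have hK : 0 < 2 ^ E * D * Ns := by positivity
  obtain ⟨S, hS, hcard, hsum⟩ := hNs q (hq.le.trans hz0)
  have h1 := URep.of_finset_divisors (2 ^ E * D * Ns) hK S (fun d hd =>
    Dvd.dvd.mul_left (Nat.dvd_of_mem_divisors (hS hd)) _)
  have h2 : (∑ d ∈ S, (d : ℚ)) = (q : ℚ) := by
    rw [← hsum]; push_cast; rfl
  rw [h2] at h1
  exact h1.mono hcard

/-- T5b: one admissible modulus, shifted by `2^e`, costs 18 unit fractions. -/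
theorem URep_stage {E D Ns e w t : ℕ} (hD : 0 < D) (hNs : 0 < Ns) (he : e ≤ E) (hw : 0 < w)
    (d : Fin 18 → ℕ) (hd : ∀ i, d i ∣ D) (hwt : w * t = ∑ i, d i) :
    URep (((2 ^ e * w : ℕ) : ℚ) / ((2 ^ E * D * Ns : ℕ) : ℚ)) 18 := by
  have hK : 0 < 2 ^ E * D * Ns := by positivity
  have ht : 0 < t := by
    rcases Nat.eq_zero_or_pos t with h0 | h0
    · exfalso
      rw [h0, Nat.mul_zero] at hwt
      have h1 : 0 < d 0 := Nat.pos_of_dvd_of_pos (hd 0) hD
      have h2 : d 0 ≤ ∑ i, d i := Finset.single_le_sum (fun i _ => Nat.zero_le _) (Finset.mem_univ 0)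
      omega
    · exact h0
  have h1 := URep.of_divisors (2 ^ E * D * Ns) t hK ht (fun i => 2 ^ e * d i) (fun i =>
    Dvd.dvd.mul_right (Nat.mul_dvd_mul (pow_dvd_pow 2 he) (hd i)) _)
  have h2 : (∑ i, ((2 ^ e * d i : ℕ) : ℚ)) = ((2 ^ e * w : ℕ) : ℚ) * t := by
    have : ∑ i, (2 ^ e * d i) = 2 ^ e * w * t := by
      rw [← Finset.mul_sum, ← hwt, Nat.mul_assoc]
    exact_mod_cast this
  rw [h2] at h1
  have h3 : ((2 ^ e * w : ℕ) : ℚ) * t / ((t : ℚ) * ((2 ^ E * D * Ns : ℕ) : ℚ)) =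
      ((2 ^ e * w : ℕ) : ℚ) / ((2 ^ E * D * Ns : ℕ) : ℚ) := by
    have ht' : (t : ℚ) ≠ 0 := by exact_mod_cast ht.ne'
    have hK' : ((2 ^ E * D * Ns : ℕ) : ℚ) ≠ 0 := by exact_mod_cast hK.ne'
    field_simp
  rw [h3] at h1
  exact h1

/-- splitting a numerator -/
private theorem URep_split {K q s k : ℕ} (hs : s ≤ q) (h1 : URep (((q - s : ℕ) : ℚ) / K) k)
    (h2 : URep ((s : ℚ) / (K : ℚ)) 18) : URep ((q : ℚ) / K) (k + 18) := by
  have h3 := h1.add h2
  have h4 : ((q - s : ℕ) : ℚ) / K + (s : ℚ) / (K : ℚ) = (q : ℚ) / K := by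
    rw [← add_div, Nat.cast_sub hs]
    congr 1
    ring
  rwa [h4] at h3

/-- T5c: one step below `2^(ν+1)`. -/
theorem PP_stepB {E D Ns z0 ν z z' k : ℕ} (hD : 0 < D) (hNs : 0 < Ns) (hadm : AdmProp D z0 ν)
    (h : PP (2 ^ E * D * Ns) z k) (hz : z0 ≤ z) (hz' : z' ≤ ν + 1) (hzz : 11 * z' ≤ 12 * z) :
    PP (2 ^ E * D * Ns) z' (k + 18) := by
  intro q hq
  rcases lt_or_ge q (2 ^ z) with hlt | hge
  · exact (h q hlt).mono (Nat.le_add_right _ _)
  have h1 : 2 ^ z0 ≤ q := (Nat.pow_le_pow_right (by norm_num) hz).trans hge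
  have h2 : q < 2 ^ (ν + 1) := lt_of_lt_of_le hq (Nat.pow_le_pow_right (by norm_num) hz')
  obtain ⟨w, t, d, hw, hwq, hpow, hd, hwt⟩ := hadm q h1 h2
  have h3 : q - w < 2 ^ z := by
    have h4 : q ^ 11 < (2 ^ z') ^ 11 := Nat.pow_lt_pow_left hq (by norm_num)
    have h5 : (2 ^ z') ^ 11 ≤ (2 ^ z) ^ 12 := by
      rw [← pow_mul, ← pow_mul]
      exact Nat.pow_le_pow_right (by norm_num) (by omega)
    have h6 : (q - w) ^ 12 < (2 ^ z) ^ 12 := lt_of_le_of_lt hpow (lt_of_lt_of_le h4 h5)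
    exact lt_of_pow_lt_pow_left₀ 12 (Nat.zero_le _) h6
  have h7 := URep_stage (E := E) (e := 0) hD hNs (Nat.zero_le _) hw d hd hwt
  rw [pow_zero, Nat.one_mul] at h7
  exact URep_split hwq (h (q - w) h3) h7

/-- T5d: doubling the number of bits costs 12 steps. -/
theorem PP_double {E D Ns z0 ν z k : ℕ} (hD : 0 < D) (hNs : 0 < Ns) (hadm : AdmProp D z0 ν)
    (h : PP (2 ^ E * D * Ns) z k) (hz : z0 ≤ z) (hz1 : 132 ≤ z) (hz' : 2 * z ≤ ν + 1) :
    PP (2 ^ E * D * Ns) (2 * z) (k + 216) := by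
  have key : ∀ i : ℕ, PP (2 ^ E * D * Ns) (min (z + i * (z / 11)) (2 * z)) (k + 18 * i) := by
    intro i
    induction i with
    | zero =>
      have e : min (z + 0 * (z / 11)) (2 * z) = z := by
        rw [Nat.zero_mul, Nat.add_zero]
        exact Nat.min_eq_left (by omega)
      rw [e]
      exact h
    | succ i ih =>
      have e : (i + 1) * (z / 11) = i * (z / 11) + z / 11 := by ring
      have hstep := PP_stepB (z := min (z + i * (z / 11)) (2 * z))
        (z' := min (z + (i + 1) * (z / 11)) (2 * z)) hD hNs hadm ih (by omega) (by omega)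
        (by rw [e]; omega)
      have e2 : k + 18 * (i + 1) = k + 18 * i + 18 := by ring
      rw [e2]
      exact hstep
  have h12 := key 12
  have e : min (z + 12 * (z / 11)) (2 * z) = 2 * z := Nat.min_eq_right (by omega)
  rw [e] at h12
  exact h12

/-- T5e: one step above `2^ν`: gain of `g + 1` bits. -/
theorem PP_stepA {E D Ns z0 ν z z' g k : ℕ} (hD : 0 < D) (hNs : 0 < Ns) (hadm : AdmProp D z0 ν)
    (hz0 : z0 ≤ ν) (h : PP (2 ^ E * D * Ns) z k) (hz : ν ≤ z) (hz' : z' ≤ E)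
    (hg : 12 * g + 11 ≤ ν) (hzz : z' ≤ z + g + 1) :
    PP (2 ^ E * D * Ns) z' (k + 18) := by
  intro q hq
  rcases lt_or_ge q (2 ^ z) with hlt | hge
  · exact (h q hlt).mono (Nat.le_add_right _ _)
  have hq0 : q ≠ 0 := by
    have : 0 < 2 ^ z := by positivity
    omega
  set L := Nat.log 2 q with hL
  have hL1 : 2 ^ L ≤ q := Nat.pow_log_le_self 2 hq0
  have hL2 : q < 2 ^ (L + 1) := Nat.lt_pow_succ_log_self (by norm_num) q
  have hzL : z ≤ L := by
    have : 2 ^ z < 2 ^ (L + 1) := lt_of_le_of_lt hge hL2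
    have := (Nat.pow_lt_pow_iff_right (by norm_num : 1 < 2)).mp this
    omega
  have hLz' : L < z' := by
    have : 2 ^ L < 2 ^ z' := lt_of_le_of_lt hL1 hq
    exact (Nat.pow_lt_pow_iff_right (by norm_num : 1 < 2)).mp this
  set e := L - ν with he
  have heL : e + ν = L := by omega
  have hepos : 0 < 2 ^ e := by positivity
  set m := q / 2 ^ e with hm
  have hm1 : 2 ^ ν ≤ m := by
    rw [hm, Nat.le_div_iff_mul_le hepos, ← pow_add, Nat.add_comm, heL]
    exact hL1
  have hm2 : m < 2 ^ (ν + 1) := by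
    rw [hm, Nat.div_lt_iff_lt_mul hepos, ← pow_add]
    have : ν + 1 + e = L + 1 := by omega
    rw [this]
    exact hL2
  obtain ⟨w, t, d, hw, hwm, hpow, hd, hwt⟩ :=
    hadm m ((Nat.pow_le_pow_right (by norm_num) hz0).trans hm1) hm2
  have h3 : m - w < 2 ^ (ν - g) := by
    have h4 : m ^ 11 < (2 ^ (ν + 1)) ^ 11 := Nat.pow_lt_pow_left hm2 (by norm_num)
    have h5 : (2 ^ (ν + 1)) ^ 11 ≤ (2 ^ (ν - g)) ^ 12 := by
      rw [← pow_mul, ← pow_mul]
      exact Nat.pow_le_pow_right (by norm_num) (by omega)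
    have h6 : (m - w) ^ 12 < (2 ^ (ν - g)) ^ 12 := lt_of_le_of_lt hpow (lt_of_lt_of_le h4 h5)
    exact lt_of_pow_lt_pow_left₀ 12 (Nat.zero_le _) h6
  have hmq : 2 ^ e * m ≤ q := by
    rw [hm]; exact Nat.mul_div_le q (2 ^ e)
  have hqm : q < 2 ^ e * (m + 1) := by
    rw [hm]; exact Nat.lt_mul_div_succ q hepos
  have hsq : 2 ^ e * w ≤ q := (Nat.mul_le_mul_left _ hwm).trans hmq
  have h8 : q - 2 ^ e * w < 2 ^ z := by
    have h9 : q - 2 ^ e * w < 2 ^ e * (m - w + 1) := by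
      have : 2 ^ e * (m - w + 1) = 2 ^ e * (m + 1) - 2 ^ e * w := by
        rw [← Nat.mul_sub]
        congr 1
        omega
      rw [this]
      omega
    have h10 : 2 ^ e * (m - w + 1) ≤ 2 ^ e * 2 ^ (ν - g) := Nat.mul_le_mul_left _ h3
    have h11 : 2 ^ e * 2 ^ (ν - g) ≤ 2 ^ z := by
      rw [← pow_add]
      exact Nat.pow_le_pow_right (by norm_num) (by omega)
    omega
  have h7 := URep_stage (E := E) (e := e) hD hNs (by omega) hw d hd hwt
  exact URep_split hsq (h (q - 2 ^ e * w) h8) h7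

/-- T5: the whole descent. -/
theorem rep_all {D Ns hs ν z0 E jB g : ℕ} (hD : 0 < D) (hNs : Good Ns hs) (hNs0 : 2 ^ z0 ≤ Ns)
    (hz0 : 132 ≤ z0) (hν : ν = z0 * 2 ^ jB) (hg : 12 * g + 11 ≤ ν) (hg0 : 0 < g)
    (hadm : AdmProp D z0 ν) :
    PP (2 ^ E * D * Ns) E (hs + 216 * jB + 18 * (E / g + 1)) := by
  have hNs1 : 0 < Ns := lt_of_lt_of_le (by positivity) hNs0
  have hz0ν : z0 ≤ ν := by
    rw [hν]
    exact Nat.le_mul_of_pos_right _ (by positivity)
  -- doubling
  have key1 : ∀ j : ℕ, j ≤ jB → PP (2 ^ E * D * Ns) (z0 * 2 ^ j) (hs + 216 * j) := by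
    intro j
    induction j with
    | zero =>
      intro _
      rw [pow_zero, Nat.mul_one, Nat.mul_zero, Nat.add_zero]
      exact PP_base hD hNs hNs0
    | succ j ih =>
      intro hj
      have ih' := ih (by omega)
      have hle : z0 ≤ z0 * 2 ^ j := Nat.le_mul_of_pos_right _ (by positivity)
      have hpow : z0 * 2 ^ (j + 1) ≤ ν := by
        rw [hν]
        exact Nat.mul_le_mul_left _ (Nat.pow_le_pow_right (by norm_num) hj)
      have e1 : 2 * (z0 * 2 ^ j) = z0 * 2 ^ (j + 1) := by ring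
      have hd := PP_double hD hNs1 hadm ih' hle (hz0.trans hle) (by rw [e1]; omega)
      rw [e1] at hd
      have e2 : hs + 216 * (j + 1) = hs + 216 * j + 216 := by ring
      rw [e2]
      exact hd
  have hPν : PP (2 ^ E * D * Ns) ν (hs + 216 * jB) := by
    have := key1 jB le_rfl
    rw [← hν] at this
    exact this
  rcases Nat.lt_or_ge ν E with hE | hE
  · -- the steps above `2^ν`
    have key2 : ∀ i : ℕ,
        PP (2 ^ E * D * Ns) (min (ν + i * (g + 1)) E) (hs + 216 * jB + 18 * i) := by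
      intro i
      induction i with
      | zero =>
        have e : min (ν + 0 * (g + 1)) E = ν := by
          rw [Nat.zero_mul, Nat.add_zero]
          exact Nat.min_eq_left hE.le
        rw [e]
        exact hPν
      | succ i ih =>
        have e : (i + 1) * (g + 1) = i * (g + 1) + (g + 1) := by ring
        have hstep := PP_stepA (z := min (ν + i * (g + 1)) E)
          (z' := min (ν + (i + 1) * (g + 1)) E) (g := g) hD hNs1 hadm hz0ν ih (by omega)
          (by omega) hg (by rw [e]; omega)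
        have e2 : hs + 216 * jB + 18 * (i + 1) = hs + 216 * jB + 18 * i + 18 := by ring
        rw [e2]
        exact hstep
    have hfin := key2 (E / g + 1)
    have h1 : E < g * (E / g + 1) := Nat.lt_mul_div_succ E hg0
    have h2 : g * (E / g + 1) ≤ (E / g + 1) * (g + 1) := by
      rw [Nat.mul_comm]
      exact Nat.mul_le_mul_left _ (by omega)
    have e : min (ν + (E / g + 1) * (g + 1)) E = E := Nat.min_eq_right (by omega)
    rw [e] at hfin
    exact hfin
  · intro q hq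
    have hq' : q < 2 ^ ν := lt_of_lt_of_le hq (Nat.pow_le_pow_right (by norm_num) hE)
    exact (hPν q hq').mono (by omega)

end Vale.Agent.Lib.P012.LL
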