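import Vale.Agent.Lib.P012.LL.CountCong

/-! # D2: summing D1 over all pairs with a large one-sided difference -/

namespace Vale.Agent.Lib.P012.LL
open Finset

theorem sum_TrJ_le {M n : ℕ} (pr : Fin M → ℕ) (hinj : Function.Injective pr)
    (hprime : ∀ i, (pr i).Prime) (σ : ℕ) (hle : ∀ i, pr i ≤ 2 ^ σ)
    (e : ℕ) (he : 0 < e) (hcop : ∀ i, ¬ pr i ∣ e) (h : ℕ) (hh : h ≤ n) :
    ∑ f : Fin n → Fin M, TrJ pr f e h
      ≤ 4 ^ n * (M ^ (n - h) * ((2 ^ σ) ^ h / e + 1) * (σ * h) ^ h) := by
  set B := M ^ (n - h) * ((2 ^ σ) ^ h / e + 1) * (σ * h) ^ h with hB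
  have key : ∀ P : Finset (Fin n) × Finset (Fin n),
      ((Finset.univ : Finset (Fin n → Fin M)).filter (fun f =>
        (h ≤ (P.1 \ P.2).card ∨ h ≤ (P.2 \ P.1).card) ∧
        uprod pr f P.1 ≡ uprod pr f P.2 [MOD e])).card ≤ B := by
    intro P
    by_cases h1 : h ≤ (P.1 \ P.2).card
    · obtain ⟨H, hH, hcard⟩ := Finset.exists_subset_card_eq h1
      have h3 := count_cong pr hinj hprime σ hle e he hcop P.1 P.2 H hH
      rw [hcard] at h3
      refine le_trans (Finset.card_le_card ?_) h3
      intro f hf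
      simp only [mem_filter, mem_univ, true_and] at hf ⊢
      exact hf.2
    · by_cases h2 : h ≤ (P.2 \ P.1).card
      · obtain ⟨H, hH, hcard⟩ := Finset.exists_subset_card_eq h2
        have h3 := count_cong pr hinj hprime σ hle e he hcop P.2 P.1 H hH
        rw [hcard] at h3
        refine le_trans (Finset.card_le_card ?_) h3
        intro f hf
        simp only [mem_filter, mem_univ, true_and] at hf ⊢
        exact hf.2.symm
      · have : ((Finset.univ : Finset (Fin n → Fin M)).filter (fun f =>
            (h ≤ (P.1 \ P.2).card ∨ h ≤ (P.2 \ P.1).card) ∧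
            uprod pr f P.1 ≡ uprod pr f P.2 [MOD e])) = ∅ := by
          apply Finset.filter_eq_empty_iff.2
          intro f _ hf
          rcases hf.1 with h3 | h3
          · exact h1 h3
          · exact h2 h3
        rw [this]
        simp
  calc ∑ f : Fin n → Fin M, TrJ pr f e h
      = ∑ f : Fin n → Fin M, ∑ P : Finset (Fin n) × Finset (Fin n),
          if ((h ≤ (P.1 \ P.2).card ∨ h ≤ (P.2 \ P.1).card) ∧
            uprod pr f P.1 ≡ uprod pr f P.2 [MOD e]) then 1 else 0 := by
        apply Finset.sum_congr rfl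
        intro f _
        rw [TrJ, Finset.card_filter]
    _ = ∑ P : Finset (Fin n) × Finset (Fin n), ∑ f : Fin n → Fin M,
          if ((h ≤ (P.1 \ P.2).card ∨ h ≤ (P.2 \ P.1).card) ∧
            uprod pr f P.1 ≡ uprod pr f P.2 [MOD e]) then 1 else 0 := Finset.sum_comm
    _ ≤ ∑ _P : Finset (Fin n) × Finset (Fin n), B := by
        apply Finset.sum_le_sum
        intro P _
        rw [← Finset.card_filter]
        exact key P
    _ = 4 ^ n * B := by
        rw [Finset.sum_const, Finset.card_univ, Fintype.card_prod, Fintype.card_finset,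
          Fintype.card_fin, smul_eq_mul, ← mul_pow]
        norm_num

end Vale.Agent.Lib.P012.LL
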