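import Vale.Agent.Lib.P012.LL.Defs

/-! # basic API for `URep` -/

namespace Vale.Agent.Lib.P012.LL
open Finset

theorem URep.zero (k : ℕ) : URep 0 k := ⟨0, by simp, by simp, by simp⟩

theorem URep.mono {x : ℚ} {k k' : ℕ} (h : URep x k) (hk : k ≤ k') : URep x k' := by
  obtain ⟨l, h1, h2, h3⟩ := h
  exact ⟨l, h1.trans hk, h2, h3⟩

theorem URep.add {x y : ℚ} {k k' : ℕ} (hx : URep x k) (hy : URep y k') : URep (x + y) (k + k') := by
  obtain ⟨l, h1, h2, h3⟩ := hx
  obtain ⟨l', h1', h2', h3'⟩ := hy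
  refine ⟨l + l', by rw [Multiset.card_add]; omega, ?_, by rw [Multiset.map_add, Multiset.sum_add, h3, h3']⟩
  intro n hn
  rcases Multiset.mem_add.mp hn with h | h
  · exact h2 n h
  · exact h2' n h

/-- scaling: all denominators get multiplied by `F`. -/
theorem URep.scale {x : ℚ} {k : ℕ} (hx : URep x k) (F : ℕ) (hF : 0 < F) :
    ∃ l : Multiset ℕ, Multiset.card l ≤ k ∧ (∀ n ∈ l, 0 < n ∧ F ∣ n) ∧
      (l.map (fun n : ℕ => (1 : ℚ) / n)).sum = x / F := by
  obtain ⟨l, h1, h2, h3⟩ := hx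
  refine ⟨l.map (fun n => F * n), by simpa using h1, ?_, ?_⟩
  · intro n hn
    obtain ⟨a, ha, rfl⟩ := Multiset.mem_map.mp hn
    exact ⟨Nat.mul_pos hF (h2 a ha), Dvd.intro _ rfl⟩
  · rw [Multiset.map_map, ← h3, div_eq_mul_inv, ← Multiset.sum_map_mul_right]
    congr 1
    apply Multiset.map_congr rfl
    intro a _
    simp only [Function.comp, Nat.cast_mul]
    rw [one_div, one_div, mul_inv, mul_comm]

/-- a sum of `c` divisors of `K`, divided by `t * K`. -/
theorem URep.of_divisors {c : ℕ} (K t : ℕ) (hK : 0 < K) (ht : 0 < t) (d : Fin c → ℕ)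
    (hd : ∀ i, d i ∣ K) : URep ((∑ i, (d i : ℚ)) / (t * K)) c := by
  refine ⟨(Finset.univ : Finset (Fin c)).val.map (fun i => t * (K / d i)), by simp, ?_, ?_⟩
  · intro n hn
    obtain ⟨i, _, rfl⟩ := Multiset.mem_map.mp hn
    have hdpos : 0 < d i := Nat.pos_of_dvd_of_pos (hd i) hK
    exact Nat.mul_pos ht (Nat.div_pos (Nat.le_of_dvd hK (hd i)) hdpos)
  · rw [Multiset.map_map, Finset.sum_div]
    change ∑ i : Fin c, _ = _
    apply Finset.sum_congr rfl
    intro i _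
    have hdpos : 0 < d i := Nat.pos_of_dvd_of_pos (hd i) hK
    simp only [Function.comp, Nat.cast_mul]
    rw [Nat.cast_div (hd i) (by exact_mod_cast hdpos.ne')]
    have h1 : (d i : ℚ) ≠ 0 := by exact_mod_cast hdpos.ne'
    have h2 : (K : ℚ) ≠ 0 := by exact_mod_cast hK.ne'
    have h3 : (t : ℚ) ≠ 0 := by exact_mod_cast ht.ne'
    field_simp

/-- a sum of distinct divisors of `K`. -/
theorem URep.of_finset_divisors (K : ℕ) (hK : 0 < K) (S : Finset ℕ) (hS : ∀ d ∈ S, d ∣ K) :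
    URep ((∑ d ∈ S, (d : ℚ)) / K) S.card := by
  refine ⟨S.val.map (fun d => K / d), by simp, ?_, ?_⟩
  · intro n hn
    obtain ⟨d, hd, rfl⟩ := Multiset.mem_map.mp hn
    have hdK := hS d hd
    have hdpos : 0 < d := Nat.pos_of_dvd_of_pos hdK hK
    exact Nat.div_pos (Nat.le_of_dvd hK hdK) hdpos
  · rw [Multiset.map_map, Finset.sum_div]
    change ∑ d ∈ S, _ = _
    apply Finset.sum_congr rfl
    intro d hd
    have hdK := hS d hd
    have hdpos : 0 < d := Nat.pos_of_dvd_of_pos hdK hK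
    simp only [Function.comp]
    rw [Nat.cast_div hdK (by exact_mod_cast hdpos.ne')]
    have h1 : (d : ℚ) ≠ 0 := by exact_mod_cast hdpos.ne'
    have h2 : (K : ℚ) ≠ 0 := by exact_mod_cast hK.ne'
    field_simp

end Vale.Agent.Lib.P012.LL
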